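import Vale.Agent.P281.MF.Ext2
import Mathlib.Order.Filter.Germ.Basic
import Mathlib.RingTheory.IntegralClosure.IntegrallyClosed

/-!
# P301, package SAT: germs of holomorphic functions
-/

open Set Filter Metric Topology

namespace Vale.Agent.P301.H508

variable {Y : Type*} [NormedAddCommGroup Y] [NormedSpace ℂ Y]

/-- identity theorem: the product of two germs which are not zero is not zero. -/
theorem zero_or {f g : Y → ℂ} {p : Y} (hf : AnalyticAt ℂ f p) (hg : AnalyticAt ℂ g p)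
    (h : ∀ᶠ y in 𝓝 p, f y * g y = 0) : (∀ᶠ y in 𝓝 p, f y = 0) ∨ ∀ᶠ y in 𝓝 p, g y = 0 := by
  by_cases h0 : ∀ᶠ y in 𝓝 p, f y = 0
  · exact Or.inl h0
  · right
    obtain ⟨r, hr, hb⟩ := Metric.eventually_nhds_iff_ball.1
      ((hf.eventually_analyticAt.and hg.eventually_analyticAt).and h)
    obtain ⟨y₁, hy₁, hy₁0⟩ : ∃ y ∈ ball p r, f y ≠ 0 := by
      by_contra hcon
      push Not at hcon
      exact h0 (by filter_upwards [ball_mem_nhds p hr] with y hy using hcon y hy)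
    have h1 : g =ᶠ[𝓝 y₁] 0 := by
      filter_upwards [(hb y₁ hy₁).1.1.continuousAt.eventually_ne hy₁0,
        isOpen_ball.mem_nhds hy₁] with y hy hyb
      exact (mul_eq_zero.1 (hb y hyb).2).resolve_left hy
    have h2 : AnalyticOnNhd ℂ g (ball p r) := fun y hy => (hb y hy).1.2
    have h3 := h2.eqOn_zero_of_preconnected_of_eventuallyEq_zero
      (convex_ball _ _).isPreconnected hy₁ h1
    filter_upwards [ball_mem_nhds p hr] with y hy using h3 hy

/-- germs of holomorphic functions at `p`. -/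
def Og (p : Y) : Subring (Germ (𝓝 p) ℂ) where
  carrier := {g | ∃ f : Y → ℂ, AnalyticAt ℂ f p ∧ (f : Germ (𝓝 p) ℂ) = g}
  mul_mem' := by
    rintro _ _ ⟨f, hf, rfl⟩ ⟨g, hg, rfl⟩
    exact ⟨f * g, hf.mul hg, rfl⟩
  one_mem' := ⟨1, analyticAt_const, rfl⟩
  add_mem' := by
    rintro _ _ ⟨f, hf, rfl⟩ ⟨g, hg, rfl⟩
    exact ⟨f + g, hf.add hg, rfl⟩
  zero_mem' := ⟨0, analyticAt_const, rfl⟩
  neg_mem' := by
    rintro _ ⟨f, hf, rfl⟩
    exact ⟨-f, hf.neg, rfl⟩

/-- a representative of a germ. -/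
noncomputable def rep {p : Y} (g : Og p) : Y → ℂ := g.2.choose

theorem rep_analytic {p : Y} (g : Og p) : AnalyticAt ℂ (rep g) p := g.2.choose_spec.1

theorem rep_coe {p : Y} (g : Og p) : ((rep g : Y → ℂ) : Germ (𝓝 p) ℂ) = g.1 := g.2.choose_spec.2

/-- the germ of a function. -/
def mkg {p : Y} (f : Y → ℂ) (hf : AnalyticAt ℂ f p) : Og p := ⟨(f : Germ (𝓝 p) ℂ), f, hf, rfl⟩

theorem rep_mkg {p : Y} {f : Y → ℂ} (hf : AnalyticAt ℂ f p) : rep (mkg f hf) =ᶠ[𝓝 p] f :=
  Germ.coe_eq.1 (rep_coe (mkg f hf))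

theorem rep_mul {p : Y} (g h : Og p) : rep (g * h) =ᶠ[𝓝 p] fun y => rep g y * rep h y := by
  refine Germ.coe_eq.1 ?_
  rw [rep_coe]
  show g.1 * h.1 = _
  rw [← rep_coe g, ← rep_coe h]
  rfl

theorem rep_add {p : Y} (g h : Og p) : rep (g + h) =ᶠ[𝓝 p] fun y => rep g y + rep h y := by
  refine Germ.coe_eq.1 ?_
  rw [rep_coe]
  show g.1 + h.1 = _
  rw [← rep_coe g, ← rep_coe h]
  rfl

theorem rep_one {p : Y} : rep (1 : Og p) =ᶠ[𝓝 p] fun _ => 1 := by
  refine Germ.coe_eq.1 ?_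
  rw [rep_coe]
  rfl

theorem rep_zero {p : Y} : rep (0 : Og p) =ᶠ[𝓝 p] fun _ => 0 := by
  refine Germ.coe_eq.1 ?_
  rw [rep_coe]
  rfl

theorem rep_eq_zero {p : Y} {g : Og p} (h : rep g =ᶠ[𝓝 p] fun _ => 0) : g = 0 := by
  apply Subtype.ext
  rw [← rep_coe g]
  exact Germ.coe_eq.2 h

theorem ext_rep {p : Y} {g h : Og p} (e : rep g =ᶠ[𝓝 p] rep h) : g = h := by
  apply Subtype.ext
  rw [← rep_coe g, ← rep_coe h]
  exact Germ.coe_eq.2 e

instance {p : Y} : Nontrivial (Og p) := by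
  refine ⟨⟨0, 1, fun h => ?_⟩⟩
  have h1 : rep (0 : Og p) =ᶠ[𝓝 p] rep (1 : Og p) := by rw [h]
  have h2 := (rep_zero.symm.trans (h1.trans rep_one)).self_of_nhds
  simp at h2

instance {p : Y} : NoZeroDivisors (Og p) where
  eq_zero_or_eq_zero_of_mul_eq_zero := by
    intro a b h
    have h1 : ∀ᶠ y in 𝓝 p, rep a y * rep b y = 0 := by
      filter_upwards [rep_mul a b, rep_zero (p := p)] with y h1 h2
      rw [← h1, h, h2]
    rcases zero_or (rep_analytic a) (rep_analytic b) h1 with h2 | h2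
    · exact Or.inl (rep_eq_zero h2)
    · exact Or.inr (rep_eq_zero h2)

instance {p : Y} : IsDomain (Og p) := NoZeroDivisors.to_isDomain _

theorem root_bound {m : ℕ} {a b : ℂ} {c : ℕ → ℂ} {C : ℝ} (hC : 0 ≤ C)
    (hc : ∀ i < m, ‖c i‖ ≤ C)
    (h : a ^ m + ∑ i ∈ Finset.range m, c i * a ^ i * b ^ (m - i) = 0) :
    ‖a‖ ≤ max 1 (m * C) * ‖b‖ := by
  by_contra hcon
  push Not at hcon
  have hb : ‖b‖ < ‖a‖ := by
    refine lt_of_le_of_lt ?_ hcon
    calc ‖b‖ = 1 * ‖b‖ := (one_mul _).symm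
      _ ≤ _ := by gcongr; exact le_max_left _ _
  have ha : 0 < ‖a‖ := (norm_nonneg _).trans_lt hb
  have hmC : m * C * ‖b‖ < ‖a‖ := by
    refine lt_of_le_of_lt ?_ hcon
    gcongr
    exact le_max_right _ _
  rcases Nat.eq_zero_or_pos m with rfl | hm
  · simp at h
  have h1 : ‖a‖ ^ m ≤ ∑ i ∈ Finset.range m, C * (‖a‖ ^ (m - 1) * ‖b‖) := by
    have h2 : a ^ m = -∑ i ∈ Finset.range m, c i * a ^ i * b ^ (m - i) := eq_neg_of_add_eq_zero_left h
    rw [← norm_pow, h2, norm_neg]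
    refine (norm_sum_le _ _).trans (Finset.sum_le_sum fun i hi => ?_)
    rw [Finset.mem_range] at hi
    rw [norm_mul, norm_mul, norm_pow, norm_pow, mul_assoc]
    refine mul_le_mul (hc i hi) ?_ (by positivity) hC
    have h3 : ‖b‖ ^ (m - i) = ‖b‖ ^ (m - i - 1) * ‖b‖ := by
      rw [← pow_succ]
      congr 1
      omega
    have h4 : ‖a‖ ^ (m - 1) = ‖a‖ ^ i * ‖a‖ ^ (m - i - 1) := by
      rw [← pow_add]
      congr 1
      omega
    rw [h3, h4, mul_assoc]
    gcongr
  rw [Finset.sum_const, Finset.card_range, nsmul_eq_mul] at h1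
  have h5 : ‖a‖ ^ m = ‖a‖ ^ (m - 1) * ‖a‖ := by
    rw [← pow_succ]
    congr 1
    omega
  rw [h5] at h1
  have h6 : 0 < ‖a‖ ^ (m - 1) := by positivity
  have h7 : ‖a‖ ^ (m - 1) * (m * C * ‖b‖) < ‖a‖ ^ (m - 1) * ‖a‖ := by gcongr
  nlinarith only [h1, h7]

variable [FiniteDimensional ℂ Y]

/-- a bounded quotient of holomorphic functions is holomorphic -/
theorem bounded_quotient {p : Y} {f g : Y → ℂ} (hf : AnalyticAt ℂ f p) (hg : AnalyticAt ℂ g p)
    (hne : ¬ ∀ᶠ y in 𝓝 p, g y = 0) {M : ℝ} (h : ∀ᶠ y in 𝓝 p, ‖f y‖ ≤ M * ‖g y‖) :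
    ∃ q : Y → ℂ, AnalyticAt ℂ q p ∧ ∀ᶠ y in 𝓝 p, f y = g y * q y := by
  refine Vale.Agent.P281.MF.extend_quotient hf hg hne ?_
  filter_upwards [eventually_eventually_nhds.2 h] with x hx h0
  exact subset_closure ⟨h0, M, hx⟩

/-- the ring of germs is integrally closed. -/
instance {p : Y} : IsIntegrallyClosed (Og p) := by
  rw [isIntegrallyClosed_iff (FractionRing (Og p))]
  intro x hx
  obtain ⟨⟨α, β, hβ⟩, rfl⟩ := IsLocalization.mk'_surjective (nonZeroDivisors (Og p)) x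
  obtain ⟨P, hP, hPx⟩ := hx
  have hβ0 : β ≠ 0 := nonZeroDivisors.ne_zero hβ
  set m := P.natDegree with hm
  -- the homogeneous equation
  have hhom : α ^ m + ∑ i ∈ Finset.range m, P.coeff i * α ^ i * β ^ (m - i) = 0 := by
    have hinj : Function.Injective (algebraMap (Og p) (FractionRing (Og p))) :=
      IsFractionRing.injective _ _
    apply hinj
    rw [map_zero]
    have h2 : (algebraMap (Og p) (FractionRing (Og p)) β) ≠ 0 := fun h => hβ0 (hinj (by
      rw [h, map_zero]))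
    have h3 : Polynomial.eval₂ (algebraMap (Og p) (FractionRing (Og p)))
        (IsLocalization.mk' (FractionRing (Og p)) α ⟨β, hβ⟩) P *
        (algebraMap (Og p) (FractionRing (Og p)) β) ^ m = 0 := by
      rw [hPx, zero_mul]
    rw [Polynomial.eval₂_eq_sum_range, ← hm, Finset.sum_range_succ, hm, hP.coeff_natDegree,
      map_one, one_mul, add_mul, ← hm] at h3
    have h4 : (IsLocalization.mk' (FractionRing (Og p)) α ⟨β, hβ⟩) *
        algebraMap (Og p) (FractionRing (Og p)) β = algebraMap (Og p) (FractionRing (Og p)) α :=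
      IsLocalization.mk'_spec _ α ⟨β, hβ⟩
    rw [← mul_pow, h4, add_comm] at h3
    rw [map_add, map_pow, map_sum, ← h3, Finset.sum_mul]
    congr 1
    refine Finset.sum_congr rfl fun i hi => ?_
    rw [Finset.mem_range] at hi
    rw [map_mul, map_mul, map_pow, map_pow, ← h4]
    have h5 : (algebraMap (Og p) (FractionRing (Og p)) β) ^ m =
        (algebraMap (Og p) (FractionRing (Og p)) β) ^ i *
          (algebraMap (Og p) (FractionRing (Og p)) β) ^ (m - i) := by
      rw [← pow_add]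
      congr 1
      omega
    rw [h5]
    ring
  -- pointwise
  have hpow : ∀ (g : Og p) (n : ℕ), rep (g ^ n) =ᶠ[𝓝 p] fun y => rep g y ^ n := by
    intro g n
    induction n with
    | zero =>
      filter_upwards [rep_one (p := p)] with y hy
      simpa using hy
    | succ n ih =>
      rw [pow_succ]
      filter_upwards [rep_mul (g ^ n) g, ih] with y h1 h2
      rw [h1, h2, pow_succ]
  have hsum : ∀ (s : Finset ℕ) (f : ℕ → Og p),
      rep (∑ i ∈ s, f i) =ᶠ[𝓝 p] fun y => ∑ i ∈ s, rep (f i) y := by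
    intro s f
    induction s using Finset.cons_induction with
    | empty => simpa using rep_zero (p := p)
    | cons a s ha ih =>
      rw [Finset.sum_cons]
      filter_upwards [rep_add (f a) (∑ i ∈ s, f i), ih] with y h1 h2
      rw [h1, h2, Finset.sum_cons]
  have h6 : ∀ᶠ y in 𝓝 p, rep α y ^ m +
      ∑ i ∈ Finset.range m, rep (P.coeff i) y * rep α y ^ i * rep β y ^ (m - i) = 0 := by
    have h7 : ∀ᶠ y in 𝓝 p, ∀ i ∈ Finset.range m,
        rep (P.coeff i * α ^ i * β ^ (m - i)) y =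
          rep (P.coeff i) y * rep α y ^ i * rep β y ^ (m - i) := by
      rw [Filter.eventually_all_finset]
      intro i _
      filter_upwards [rep_mul (P.coeff i * α ^ i) (β ^ (m - i)), rep_mul (P.coeff i) (α ^ i),
        hpow α i, hpow β (m - i)] with y h1 h2 h3 h4
      rw [h1, h2, h3, h4]
    filter_upwards [rep_add (α ^ m) (∑ i ∈ Finset.range m, P.coeff i * α ^ i * β ^ (m - i)),
      hpow α m, hsum (Finset.range m) (fun i => P.coeff i * α ^ i * β ^ (m - i)), h7,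
      rep_zero (p := p)] with y h1 h2 h3 h4 h5
    rw [← h2, ← Finset.sum_congr rfl h4, ← h3, ← h1, hhom, h5]
  set C : ℝ := ∑ i ∈ Finset.range m, (‖rep (P.coeff i) p‖ + 1) with hC
  have hC0 : 0 ≤ C := Finset.sum_nonneg fun i _ => by positivity
  have h8 : ∀ᶠ y in 𝓝 p, ∀ i ∈ Finset.range m, ‖rep (P.coeff i) y‖ ≤ C := by
    rw [Filter.eventually_all_finset]
    intro i hi
    have h9 := (rep_analytic (P.coeff i)).continuousAt.norm.eventually_lt_const
      (show ‖rep (P.coeff i) p‖ < ‖rep (P.coeff i) p‖ + 1 by linarith)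
    filter_upwards [h9] with y hy
    refine hy.le.trans ?_
    exact Finset.single_le_sum (f := fun i => ‖rep (P.coeff i) p‖ + 1)
      (fun i _ => by positivity) hi
  obtain ⟨q, hq, hq1⟩ := bounded_quotient (rep_analytic α) (rep_analytic β)
    (fun h => hβ0 (rep_eq_zero h)) (M := max 1 (m * C)) (by
      filter_upwards [h6, h8] with y h1 h2
      exact root_bound hC0 (fun i hi => h2 i (Finset.mem_range.2 hi)) h1)
  refine ⟨mkg q hq, ?_⟩
  symm
  rw [IsLocalization.mk'_eq_iff_eq_mul, ← map_mul]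
  congr 1
  refine ext_rep ?_
  filter_upwards [hq1, rep_mul (mkg q hq) β, rep_mkg hq] with y h1 h2 h3
  rw [h1, h2, h3, mul_comm]

end Vale.Agent.P301.H508
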