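import Vale.Agent.P301.H508.Loc

/-!
# P301, package SAT: local saturation theorem
-/

open Set Filter Metric Topology Polynomial

namespace Vale.Agent.P301.H508

variable {κ : Type*} [Fintype κ]

/-- local saturation of the holomorphic vector `w` at `a`: `w = s e` near `a`, with `e` primitive at all
points near `a`. -/
def Sat {E : Type*} [NormedAddCommGroup E] [NormedSpace ℂ E] (w : E → κ → ℂ) (a : E) : Prop :=
  ∃ (s : E → ℂ) (e : E → κ → ℂ), AnalyticAt ℂ s a ∧ (∀ᶠ x in 𝓝 a, w x = s x • e x) ∧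
    ∀ᶠ x in 𝓝 a, Prim e x

theorem sat_of_ne {E : Type*} [NormedAddCommGroup E] [NormedSpace ℂ E] {w : E → κ → ℂ} {a : E}
    {j : κ} (hw : AnalyticAt ℂ w a) (h0 : w a j ≠ 0) : Sat w a := by
  refine ⟨fun _ => 1, w, analyticAt_const, by simp, ?_⟩
  filter_upwards [hw.eventually_analyticAt, (an_comp hw j).continuousAt.eventually_ne h0]
    with x h1 h2
  exact prim_of_ne h1 h2

theorem sat_prod {Y : Type} [NormedAddCommGroup Y] [NormedSpace ℂ Y] [FiniteDimensional ℂ Y]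
    {w : ℂ × Y → κ → ℂ} {p : Y} (hw : AnalyticAt ℂ w (0, p))
    (hne : ¬ ∀ᶠ x in 𝓝 ((0 : ℂ), p), w x = 0)
    (hreg : ∀ j, (¬ ∀ᶠ x in 𝓝 ((0 : ℂ), p), w x j = 0) → ¬ ∀ᶠ z in 𝓝 (0 : ℂ), w (z, p) j = 0) :
    Sat w (0, p) := by
  classical
  set J : Type _ := {j : κ // ¬ ∀ᶠ x in 𝓝 ((0 : ℂ), p), w x j = 0} with hJ
  obtain ⟨j₀, hj₀⟩ := ne_iff.1 hne
  have hJn : Nonempty J := ⟨⟨j₀, hj₀⟩⟩
  -- Weierstrass preparation
  have hprep : ∀ j : J, ∃ (W : (Og p)[X]) (v : ℂ × Y → ℂ), W.Monic ∧ AnalyticAt ℂ v (0, p) ∧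
      v (0, p) ≠ 0 ∧ ∀ᶠ x in 𝓝 ((0 : ℂ), p), w x j.1 = (v x)⁻¹ * fn W x := by
    intro j
    have h1 : AnalyticAt ℂ (fun z : ℂ => w (z, p) j.1) 0 := by
      have h2 : AnalyticAt ℂ (fun z : ℂ => (z, p)) 0 := analyticAt_id.prod analyticAt_const
      exact AnalyticAt.comp_of_eq (an_comp hw j.1) h2 rfl
    obtain ⟨b, u, hu, hu0, hbu⟩ := h1.exists_eventuallyEq_pow_smul_nonzero_iff.2 (hreg j.1 j.2)
    obtain ⟨P, v, hP, hPa, -, hv, hv0, hPv⟩ := Vale.Agent.P267.H823.weierstrass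
      (an_comp hw j.1) hu hu0 (by
        filter_upwards [hbu] with z hz
        rw [hz, sub_zero, smul_eq_mul])
    refine ⟨mkP b (fun i y => (P y).coeff i) hPa, v, mkP_monic _ _ _, hv, hv0, ?_⟩
    filter_upwards [hPv, fn_mkP b (fun i y => (P y).coeff i) hPa,
      hv.continuousAt.eventually_ne hv0] with x h3 h4 h5
    have h6 : (P x.2).eval x.1 =
        x.1 ^ b + ∑ i ∈ Finset.range b, (P x.2).coeff i * x.1 ^ i := by
      rw [eval_eq_sum_range, (hP x.2).2, Finset.sum_range_succ, add_comm]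
      congr 1
      have h7 := (hP x.2).1.coeff_natDegree
      rw [(hP x.2).2] at h7
      rw [h7, one_mul]
    rw [h4, ← h6, ← h3]
    field_simp
  choose W v hWm hv hv0 hWv using hprep
  obtain ⟨D, V, A, ρ, hD, hV, hDV, hρ0, hρ⟩ := gcd_monic W hWm
  -- the definition of `e`
  set e : ℂ × Y → κ → ℂ := fun x j =>
    if h : ¬ ∀ᶠ x in 𝓝 ((0 : ℂ), p), w x j = 0 then (v ⟨j, h⟩ x)⁻¹ * fn (V ⟨j, h⟩) x else 0 with he
  have hej : ∀ (j : J) x, e x j.1 = (v j x)⁻¹ * fn (V j) x := by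
    intro j x
    rw [he]
    simp only
    rw [dif_pos j.2]
  have hej' : ∀ j x, (∀ᶠ x in 𝓝 ((0 : ℂ), p), w x j = 0) → e x j = 0 := by
    intro j x h
    rw [he]
    simp only
    rw [dif_neg (not_not.2 h)]
  have hean : AnalyticAt ℂ e (0, p) := by
    rw [analyticAt_pi_iff]
    intro j
    by_cases h : ∀ᶠ x in 𝓝 ((0 : ℂ), p), w x j = 0
    · have h1 : (fun x => e x j) = fun _ => 0 := funext fun x => hej' j x h
      rw [h1]
      exact analyticAt_const
    · have h1 : (fun x => e x j) = fun x => (v ⟨j, h⟩ x)⁻¹ * fn (V ⟨j, h⟩) x :=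
        funext fun x => hej ⟨j, h⟩ x
      rw [h1]
      exact ((hv _).inv (hv0 _)).mul (fn_analytic _ 0)
  refine ⟨fn D, e, fn_analytic _ 0, ?_, ?_⟩
  · have h1 : ∀ᶠ x in 𝓝 ((0 : ℂ), p), ∀ j, w x j = fn D x * e x j := by
      rw [eventually_all]
      intro j
      by_cases h : ∀ᶠ x in 𝓝 ((0 : ℂ), p), w x j = 0
      · filter_upwards [h] with x hx
        rw [hx, hej' j x h, mul_zero]
      · filter_upwards [hWv ⟨j, h⟩, fn_mul D (V ⟨j, h⟩)] with x h1 h2
        rw [h1, hej ⟨j, h⟩ x, hDV, h2]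
        ring
    filter_upwards [h1] with x hx
    funext j
    exact hx j
  · -- primitivity
    refine prim_of_rho (ρ := rep ρ) (A := fun j x =>
      if h : ¬ ∀ᶠ x in 𝓝 ((0 : ℂ), p), w x j = 0 then fn (A ⟨j, h⟩) x * v ⟨j, h⟩ x else 0)
      (j₀ := j₀) hean (rep_analytic ρ) (fun h => hρ0 (rep_eq_zero h)) ?_ ?_ ?_
    · intro j
      by_cases h : ∀ᶠ x in 𝓝 ((0 : ℂ), p), w x j = 0
      · simp only [h, not_true_eq_false, dif_neg, not_false_eq_true]
        exact analyticAt_const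
      · simp only [h, not_false_eq_true, dif_pos]
        exact (fn_analytic _ 0).mul (hv _)
    · -- the identity
      have h1 : ∀ᶠ x in 𝓝 ((0 : ℂ), p), rep ρ x.2 = ∑ j, fn (A j) x * fn (V j) x := by
        refine Germ.coe_eq.1 ?_
        have h2 : PhiG p (C ρ) = iotaG p ρ := by
          unfold PhiG
          rw [coe_eval₂RingHom, eval₂_C]
        have h3 : ((fun x : ℂ × Y => rep ρ x.2 : ℂ × Y → ℂ) : Germ (𝓝 ((0 : ℂ), p)) ℂ) =
            iotaG p ρ := rfl
        rw [h3, ← h2, hρ, map_sum]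
        have h4 : (fun x : ℂ × Y => ∑ j, fn (A j) x * fn (V j) x) =
            ∑ j, fn (A j) * fn (V j) := by
          funext x
          rw [Finset.sum_apply]
          rfl
        rw [h4]
        have h5 := map_sum (Germ.coeRingHom (𝓝 ((0 : ℂ), p))) (fun j => fn (A j) * fn (V j))
          Finset.univ
        refine Eq.trans ?_ h5.symm
        refine Finset.sum_congr rfl fun j _ => ?_
        rw [map_mul, ← PhiG_eq, ← PhiG_eq]
        rfl
      have h2 : ∀ᶠ x in 𝓝 ((0 : ℂ), p), ∀ j, v j x ≠ 0 :=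
        eventually_all.2 fun j => (hv j).continuousAt.eventually_ne (hv0 j)
      filter_upwards [h1, h2] with x h3 h4
      rw [h3]
      have h5 : ∀ j ∈ Finset.univ, (j ∉ Finset.univ.filter
          (fun j => ¬ ∀ᶠ x in 𝓝 ((0 : ℂ), p), w x j = 0)) → (if h : ¬ ∀ᶠ x in 𝓝 ((0 : ℂ), p),
            w x j = 0 then fn (A ⟨j, h⟩) x * v ⟨j, h⟩ x else 0) * e x j = 0 := by
        intro j _ hj
        rw [Finset.mem_filter, not_and, not_not] at hj
        rw [dif_neg (not_not.2 (hj (Finset.mem_univ _))), zero_mul]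
      rw [← Finset.sum_subset (Finset.filter_subset _ _) h5]
      refine Finset.sum_bij' (fun j _ => j.1) (fun j hj => ⟨j, (Finset.mem_filter.1 hj).2⟩)
        (fun j _ => Finset.mem_filter.2 ⟨Finset.mem_univ _, j.2⟩) (fun _ _ => Finset.mem_univ _)
        (fun _ _ => rfl) (fun _ _ => rfl) ?_
      intro j _
      rw [dif_pos j.2, hej j x]
      have h6 := h4 j
      show fn (A j) x * fn (V j) x = fn (A j) x * v j x * ((v j x)⁻¹ * fn (V j) x)
      field_simp
    · -- regularity on lines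
      have h1 := fn_line (hV ⟨j₀, hj₀⟩)
      have h2 : ∀ᶠ x in 𝓝 ((0 : ℂ), p), v ⟨j₀, hj₀⟩ x ≠ 0 :=
        (hv _).continuousAt.eventually_ne (hv0 _)
      filter_upwards [h1, h2.eventually_nhds] with x h3 h4 h5
      apply h3
      have h6 : Tendsto (fun z : ℂ => (z, x.2)) (𝓝 x.1) (𝓝 x) := by
        have : ContinuousAt (fun z : ℂ => (z, x.2)) x.1 := by fun_prop
        exact this
      filter_upwards [h5, h6.eventually h4] with z h7 h8
      rw [hej ⟨j₀, hj₀⟩] at h7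
      exact (mul_eq_zero.1 h7).resolve_left (inv_ne_zero h8)

/-- primitivity is invariant under local biholomorphic maps. -/
theorem Prim.transfer {E F : Type*} [NormedAddCommGroup E] [NormedSpace ℂ E]
    [NormedAddCommGroup F] [NormedSpace ℂ F] {e : F → κ → ℂ} {Φ : F → E} {Ψ : E → F} {x : F} {y : E}
    (hx : Ψ y = x) (hy : Φ x = y) (hΦ : AnalyticAt ℂ Φ x) (hΨ : AnalyticAt ℂ Ψ y)
    (h1 : ∀ᶠ z in 𝓝 x, Ψ (Φ z) = z) (h2 : ∀ᶠ z in 𝓝 y, Φ (Ψ z) = z) (he : Prim e x) :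
    Prim (fun z => e (Ψ z)) y := by
  have tΨ : Tendsto Ψ (𝓝 y) (𝓝 x) := by
    have := hΨ.continuousAt.tendsto
    rwa [hx] at this
  have tΦ : Tendsto Φ (𝓝 x) (𝓝 y) := by
    have := hΦ.continuousAt.tendsto
    rwa [hy] at this
  refine ⟨AnalyticAt.comp_of_eq he.an hΨ hx, fun h => he.ne ?_, fun v hv hpar => ?_⟩
  · filter_upwards [tΦ.eventually h, h1] with z h3 h4
    rwa [h4] at h3
  · obtain ⟨t, ht, ht1⟩ := he.dvd (fun z => v (Φ z)) (AnalyticAt.comp_of_eq hv hΦ hy) (by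
      filter_upwards [tΦ.eventually hpar, h1] with z h3 h4 i j
      have h5 := h3 i j
      rwa [h4] at h5)
    refine ⟨fun z => t (Ψ z), AnalyticAt.comp_of_eq ht hΨ hx, ?_⟩
    filter_upwards [tΨ.eventually ht1, h2] with z h3 h4
    rw [h4] at h3
    exact h3

/-- the nonzero components have nonzero restrictions to a line. -/
theorem exists_line {E : Type*} [NormedAddCommGroup E] [NormedSpace ℂ E] {J : Type*} [Finite J]
    {f : J → E → ℂ} {a : E} (hf : ∀ j, AnalyticAt ℂ (f j) a)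
    (hne : ∀ j, ¬ ∀ᶠ x in 𝓝 a, f j x = 0) :
    ∃ η : E, ∀ j, ¬ ∀ᶠ t in 𝓝 (0 : ℂ), f j (a + t • η) = 0 := by
  classical
  cases nonempty_fintype J
  -- the product
  have h1 : ∀ s : Finset J, AnalyticAt ℂ (fun x => ∏ j ∈ s, f j x) a ∧
      ¬ ∀ᶠ x in 𝓝 a, ∏ j ∈ s, f j x = 0 := by
    intro s
    induction s using Finset.cons_induction with
    | empty =>
      refine ⟨by simpa using analyticAt_const, fun h => one_ne_zero (α := ℂ) ?_⟩
      simpa using h.self_of_nhds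
    | cons i s hi ih =>
      simp only [Finset.prod_cons]
      refine ⟨(hf i).mul ih.1, fun h => ?_⟩
      rcases zero_or (hf i) ih.1 h with h2 | h2
      · exact hne i h2
      · exact ih.2 h2
  obtain ⟨h2, h3⟩ := h1 Finset.univ
  obtain ⟨R, hR, hb⟩ := Metric.eventually_nhds_iff_ball.1
    (eventually_all.2 fun j => (hf j).eventually_analyticAt)
  obtain ⟨y₁, hy₁, hy₁0⟩ : ∃ y ∈ ball a R, ∏ j, f j y ≠ 0 := by
    by_contra hcon
    push Not at hcon
    exact h3 (by filter_upwards [ball_mem_nhds a hR] with y hy using hcon y hy)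
  refine ⟨y₁ - a, fun j hj => ?_⟩
  have hfj : f j y₁ ≠ 0 := (Finset.prod_ne_zero_iff.1 hy₁0) j (Finset.mem_univ _)
  set η := y₁ - a with hη
  have hlin : ∀ t : ℂ, AnalyticAt ℂ (fun t : ℂ => a + t • η) t := by
    intro t
    exact analyticAt_const.add (analyticAt_id.smul analyticAt_const)
  set D : Set ℂ := {t : ℂ | a + t • η ∈ ball a R} with hDdef
  have hDconv : Convex ℝ D := by
    intro s hs t ht u v hu hv huv
    have h1 := (convex_ball a R) hs ht hu hv huv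
    have h2 : u • (a + s • η) + v • (a + t • η) = a + (u • s + v • t) • η := by
      have h3 : u • a + v • a = a := by rw [← add_smul, huv, one_smul]
      rw [smul_add, smul_add, add_smul, smul_assoc, smul_assoc]
      nth_rewrite 3 [← h3]
      abel
    rw [h2] at h1
    exact h1
  have han : AnalyticOnNhd ℂ (fun t : ℂ => f j (a + t • η)) D := fun t ht =>
    AnalyticAt.fun_comp (g := f j) (f := fun t : ℂ => a + t • η) (hb _ ht j) (hlin t)
  have h0D : (0 : ℂ) ∈ D := by simp [hDdef, hR]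
  have h1D : (1 : ℂ) ∈ D := by
    simp only [hDdef, mem_ofPred_eq, one_smul, hη, add_sub_cancel]
    exact hy₁
  have h4 := han.eqOn_zero_of_preconnected_of_eventuallyEq_zero hDconv.isPreconnected h0D hj h1D
  apply hfj
  simpa [hη] using h4

/-- LOCAL SATURATION THEOREM. -/
theorem sat {E : Type} [NormedAddCommGroup E] [NormedSpace ℂ E] [FiniteDimensional ℂ E]
    {w : E → κ → ℂ} {a : E} (hw : AnalyticAt ℂ w a) (hne : ¬ ∀ᶠ x in 𝓝 a, w x = 0) : Sat w a := by
  classical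
  by_cases h0 : ∃ j, w a j ≠ 0
  · obtain ⟨j, hj⟩ := h0
    exact sat_of_ne hw hj
  push Not at h0
  obtain ⟨j₀, hj₀⟩ := ne_iff.1 hne
  obtain ⟨η, hη⟩ := exists_line
    (J := {j : κ // ¬ ∀ᶠ x in 𝓝 a, w x j = 0}) (f := fun j x => w x j.1) (a := a)
    (fun j => an_comp hw j.1) (fun j => j.2)
  have hη0 : η ≠ 0 := by
    rintro rfl
    apply hη ⟨j₀, hj₀⟩
    simp [h0]
  obtain ⟨q, hq⟩ := Submodule.exists_isCompl (Submodule.span ℂ {η})
  set T : (ℂ × q) ≃L[ℂ] E := LinearEquiv.toContinuousLinearEquiv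
    (((LinearEquiv.toSpanNonzeroSingleton ℂ E η hη0).prodCongr (LinearEquiv.refl ℂ q)).trans
      (Submodule.prodEquivOfIsCompl _ _ hq)) with hT
  have hTa : ∀ (t : ℂ) (y : q), T (t, y) = t • η + (y : E) := by
    intro t y
    rw [hT]
    simp [Submodule.coe_prodEquivOfIsCompl']
  set Φ : ℂ × q → E := fun x => a + T x with hΦ
  set Ψ : E → ℂ × q := fun x => T.symm (x - a) with hΨ
  have hΦΨ : ∀ z, Φ (Ψ z) = z := by
    intro z
    simp [hΦ, hΨ]
  have hΨΦ : ∀ z, Ψ (Φ z) = z := by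
    intro z
    simp [hΦ, hΨ]
  have hΦa : ∀ x, AnalyticAt ℂ Φ x := fun x => analyticAt_const.add (T.analyticAt x)
  have hΨa : ∀ x, AnalyticAt ℂ Ψ x := fun x =>
    AnalyticAt.comp_of_eq (T.symm.analyticAt _) (analyticAt_id.sub analyticAt_const) rfl
  have hΦ0 : Φ (0, 0) = a := by
    simp [hΦ]
  have hΨ0 : Ψ a = (0, 0) := by
    show T.symm (a - a) = 0
    rw [sub_self, map_zero]
  have tΨ : Tendsto Ψ (𝓝 a) (𝓝 (0, 0)) := by
    have := (hΨa a).continuousAt.tendsto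
    rwa [hΨ0] at this
  have tΦ : Tendsto Φ (𝓝 (0, 0)) (𝓝 a) := by
    have := (hΦa (0, 0)).continuousAt.tendsto
    rwa [hΦ0] at this
  obtain ⟨s, e, hs, hse, hprim⟩ := sat_prod (w := fun x => w (Φ x)) (p := (0 : q))
    (AnalyticAt.comp_of_eq hw (hΦa _) hΦ0) (by
      intro h
      apply hne
      filter_upwards [tΨ.eventually h] with x hx
      rwa [hΦΨ] at hx) (by
      intro j hj h
      have h1 : ¬ ∀ᶠ x in 𝓝 a, w x j = 0 := by
        intro h2
        exact hj (tΦ.eventually h2)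
      apply hη ⟨j, h1⟩
      filter_upwards [h] with t ht
      simp only [hΦ] at ht
      rw [hTa] at ht
      simpa using ht)
  refine ⟨fun x => s (Ψ x), fun x => e (Ψ x), AnalyticAt.comp_of_eq hs (hΨa a) hΨ0, ?_, ?_⟩
  · filter_upwards [tΨ.eventually hse] with x hx
    rw [← hx, hΦΨ]
  · filter_upwards [tΨ.eventually hprim] with x hx
    exact Prim.transfer (x := Ψ x) (Φ := Φ) rfl (hΦΨ x) (hΦa _) (hΨa x) (Eventually.of_forall hΨΦ)
      (Eventually.of_forall hΦΨ) hx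

end Vale.Agent.P301.H508
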