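import Vale.Agent.P301.H508.Sat

/-!
# P301, package SAT: elimination along a line for primitive vectors
-/

open Set Filter Metric Topology Polynomial

namespace Vale.Agent.P301.H508

variable {κ : Type*} [Fintype κ]

theorem prep_one {Y : Type} [NormedAddCommGroup Y] [NormedSpace ℂ Y] {f : ℂ × Y → ℂ} {p : Y}
    (hf : AnalyticAt ℂ f (0, p)) (hreg : ¬ ∀ᶠ z in 𝓝 (0 : ℂ), f (z, p) = 0) :
    ∃ (W : (Og p)[X]) (v : ℂ × Y → ℂ), W.Monic ∧ AnalyticAt ℂ v (0, p) ∧
      v (0, p) ≠ 0 ∧ ∀ᶠ x in 𝓝 ((0 : ℂ), p), f x = (v x)⁻¹ * fn W x := by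
  have h1 : AnalyticAt ℂ (fun z : ℂ => f (z, p)) 0 := by
    have h2 : AnalyticAt ℂ (fun z : ℂ => (z, p)) 0 := analyticAt_id.prod analyticAt_const
    exact AnalyticAt.comp_of_eq hf h2 rfl
  obtain ⟨b, u, hu, hu0, hbu⟩ := h1.exists_eventuallyEq_pow_smul_nonzero_iff.2 hreg
  obtain ⟨P, v, hP, hPa, -, hv, hv0, hPv⟩ := Vale.Agent.P267.H823.weierstrass
    hf hu hu0 (by
      filter_upwards [hbu] with z hz
      rw [hz, sub_zero, smul_eq_mul])
  refine ⟨mkP b (fun i y => (P y).coeff i) hPa, v, mkP_monic _ _ _, hv, hv0, ?_⟩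
  filter_upwards [hPv, fn_mkP b (fun i y => (P y).coeff i) hPa,
    hv.continuousAt.eventually_ne hv0] with x h3 h4 h5
  have h6 : (P x.2).eval x.1 =
      x.1 ^ b + ∑ i ∈ Finset.range b, (P x.2).coeff i * x.1 ^ i := by
    rw [eval_eq_sum_range, (hP x.2).2, Finset.sum_range_succ, add_comm]
    congr 1
    have h7 := (hP x.2).1.coeff_natDegree
    rw [(hP x.2).2] at h7
    rw [h7, one_mul]
  rw [h4, ← h6, ← h3]
  field_simp

theorem slice_prod {Y : Type} [NormedAddCommGroup Y] [NormedSpace ℂ Y] [FiniteDimensional ℂ Y]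
    {w : ℂ × Y → κ → ℂ} {p : Y} (hw : Prim w (0, p)) {j₀ : κ}
    (hreg : ¬ ∀ᶠ z in 𝓝 (0 : ℂ), w (z, p) j₀ = 0) :
    ∃ (ρ : Y → ℂ) (A : κ → ℂ × Y → ℂ), AnalyticAt ℂ ρ p ∧ (¬ ∀ᶠ y in 𝓝 p, ρ y = 0) ∧
      (∀ j, AnalyticAt ℂ (A j) (0, p)) ∧
      ∀ᶠ x in 𝓝 ((0 : ℂ), p), ρ x.2 = ∑ j, A j x * w x j := by
  classical
  have hκ : Nonempty κ := ⟨j₀⟩
  set c : κ → ℂ := fun j => if ∀ᶠ z in 𝓝 (0 : ℂ), w (z, p) j = 0 then 1 else 0 with hc
  have hc0 : c j₀ = 0 := by
    rw [hc]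
    simp only
    rw [if_neg hreg]
  -- all components of `w'` are regular on the line
  set w' : ℂ × Y → κ → ℂ := fun x j => w x j + c j * w x j₀ with hw'
  have hwa : ∀ j, AnalyticAt ℂ (fun x => w' x j) (0, p) := fun j =>
    (an_comp hw.an j).add (analyticAt_const.mul (an_comp hw.an j₀))
  have hreg' : ∀ j, ¬ ∀ᶠ z in 𝓝 (0 : ℂ), w' (z, p) j = 0 := by
    intro j h
    by_cases hj : ∀ᶠ z in 𝓝 (0 : ℂ), w (z, p) j = 0
    · apply hreg
      filter_upwards [h, hj] with z h1 h2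
      rw [hw'] at h1
      simp only at h1
      rw [h2, hc] at h1
      simp only at h1
      rw [if_pos hj] at h1
      simpa using h1
    · apply hj
      filter_upwards [h] with z h1
      rw [hw'] at h1
      simp only at h1
      rw [hc] at h1
      simp only at h1
      rw [if_neg hj] at h1
      simpa using h1
  choose W v hWm hv hv0 hWv using fun j => prep_one (hwa j) (hreg' j)
  obtain ⟨D, V, A, ρ, hD, hV, hDV, hρ0, hρ⟩ := gcd_monic W hWm
  set e' : ℂ × Y → κ → ℂ := fun x j => (v j x)⁻¹ * fn (V j) x with he'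
  have he'a : ∀ j, AnalyticAt ℂ (fun x => e' x j) (0, p) := fun j =>
    ((hv _).inv (hv0 _)).mul (fn_analytic _ 0)
  have hwe' : ∀ᶠ x in 𝓝 ((0 : ℂ), p), ∀ j, w' x j = fn D x * e' x j := by
    rw [eventually_all]
    intro j
    filter_upwards [hWv j, fn_mul D (V j)] with x h1 h2
    rw [h1, hDV, h2, he']
    ring
  set e : ℂ × Y → κ → ℂ := fun x j => e' x j - c j * e' x j₀ with he
  have hea : AnalyticAt ℂ e (0, p) := by
    rw [analyticAt_pi_iff]
    intro j
    exact (he'a j).sub (analyticAt_const.mul (he'a j₀))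
  have hwe : ∀ᶠ x in 𝓝 ((0 : ℂ), p), ∀ j, w x j = fn D x * e x j := by
    filter_upwards [hwe'] with x hx j
    have h1 := hx j
    have h2 := hx j₀
    rw [hw'] at h1 h2
    simp only at h1 h2
    rw [hc0, zero_mul, add_zero] at h2
    rw [he]
    simp only
    rw [mul_sub, ← h1, mul_left_comm, ← h2]
    ring
  obtain ⟨t, ht, ht1⟩ := hw.dvd e hea (by
    filter_upwards [hwe] with x hx i j
    rw [hx i, hx j]
    ring)
  obtain ⟨j₁, hj₁⟩ := ne_iff.1 hw.ne
  have ht2 : ∀ᶠ x in 𝓝 ((0 : ℂ), p), 1 - fn D x * t x = 0 := by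
    refine (zero_or (an_comp hw.an j₁) (analyticAt_const.sub ((fn_analytic D 0).mul ht))
      ?_).resolve_left hj₁
    filter_upwards [hwe, ht1] with x h1 h2
    have h3 := h1 j₁
    rw [h2] at h3
    show w x j₁ * (1 - fn D x * t x) = 0
    have h4 : w x j₁ = fn D x * (t x * w x j₁) := h3
    have h5 : w x j₁ * (1 - fn D x * t x) = w x j₁ - fn D x * (t x * w x j₁) := by ring
    rw [h5, ← h4, sub_self]
  have h1 : ∀ᶠ x in 𝓝 ((0 : ℂ), p), rep ρ x.2 = ∑ j, fn (A j) x * fn (V j) x := by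
    refine Germ.coe_eq.1 ?_
    have h2 : PhiG p (C ρ) = iotaG p ρ := by
      unfold PhiG
      rw [coe_eval₂RingHom, eval₂_C]
    have h3 : ((fun x : ℂ × Y => rep ρ x.2 : ℂ × Y → ℂ) : Germ (𝓝 ((0 : ℂ), p)) ℂ) =
        iotaG p ρ := rfl
    rw [h3, ← h2, hρ, map_sum]
    have h4 : (fun x : ℂ × Y => ∑ j, fn (A j) x * fn (V j) x) =
        ∑ j, fn (A j) * fn (V j) := by
      funext x
      rw [Finset.sum_apply]
      rfl
    rw [h4]
    have h5 := map_sum (Germ.coeRingHom (𝓝 ((0 : ℂ), p))) (fun j => fn (A j) * fn (V j))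
      Finset.univ
    refine Eq.trans ?_ h5.symm
    refine Finset.sum_congr rfl fun j _ => ?_
    rw [map_mul, ← PhiG_eq, ← PhiG_eq]
    rfl
  have h2 : ∀ᶠ x in 𝓝 ((0 : ℂ), p), ∀ j, v j x ≠ 0 :=
    eventually_all.2 fun j => (hv j).continuousAt.eventually_ne (hv0 j)
  refine ⟨rep ρ, fun j x => fn (A j) x * v j x * t x +
    (if j = j₀ then ∑ i, fn (A i) x * v i x * t x * c i else 0), rep_analytic ρ,
    fun h => hρ0 (rep_eq_zero h), ?_, ?_⟩
  · intro j
    refine (((fn_analytic _ 0).mul (hv j)).mul ht).add ?_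
    split_ifs
    · exact Finset.analyticAt_fun_sum _ fun i _ =>
        (((fn_analytic _ 0).mul (hv i)).mul ht).mul analyticAt_const
    · exact analyticAt_const
  · filter_upwards [h1, h2, hwe', ht2] with x h3 h4 h5 h6
    have h7 : ∀ j, fn (V j) x = v j x * (t x * w' x j) := by
      intro j
      rw [h5 j, he']
      simp only
      have h8 := h4 j
      have h9 : t x * (fn D x * ((v j x)⁻¹ * fn (V j) x)) =
          (fn D x * t x) * ((v j x)⁻¹ * fn (V j) x) := by ring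
      rw [h9, ← sub_eq_zero.1 h6]
      field_simp
    rw [h3]
    simp only [add_mul, ite_mul, zero_mul]
    rw [Finset.sum_add_distrib, Finset.sum_ite_eq' Finset.univ j₀, if_pos (Finset.mem_univ _),
      Finset.sum_mul, ← Finset.sum_add_distrib]
    refine Finset.sum_congr rfl fun j _ => ?_
    rw [h7 j, hw']
    ring

/-- ELIMINATION ALONG A LINE: for a primitive vector `w` at `a`, and a direction `v` along which some
component does not vanish identically, a combination `r` of the components of `w` is constant along `v`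
and not identically zero. -/
theorem slice {E : Type} [NormedAddCommGroup E] [NormedSpace ℂ E] [FiniteDimensional ℂ E]
    {w : E → κ → ℂ} {a : E} (hw : Prim w a) {v : E} {j₀ : κ}
    (hv : ¬ ∀ᶠ t in 𝓝 (0 : ℂ), w (a + t • v) j₀ = 0) :
    ∃ (r : E → ℂ) (A : κ → E → ℂ), AnalyticAt ℂ r a ∧ (∀ j, AnalyticAt ℂ (A j) a) ∧
      (∀ᶠ x in 𝓝 a, r x = ∑ j, A j x * w x j) ∧ (¬ ∀ᶠ x in 𝓝 a, r x = 0) ∧
      ∀ (x : E) (ζ : ℂ), r (x + ζ • v) = r x := by
  classical
  by_cases h0 : w a j₀ ≠ 0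
  · refine ⟨fun _ => 1, fun j x => if j = j₀ then (w x j₀)⁻¹ else 0, analyticAt_const, ?_, ?_, ?_,
      fun _ _ => rfl⟩
    · intro j
      show AnalyticAt ℂ (fun x => if j = j₀ then (w x j₀)⁻¹ else 0) a
      split_ifs
      · exact (an_comp hw.an j₀).inv h0
      · exact analyticAt_const
    · filter_upwards [(an_comp hw.an j₀).continuousAt.eventually_ne h0] with x hx
      simp only [ite_mul, zero_mul]
      rw [Finset.sum_ite_eq' Finset.univ j₀, if_pos (Finset.mem_univ _), inv_mul_cancel₀ hx]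
    · exact fun h => one_ne_zero (α := ℂ) h.self_of_nhds
  push Not at h0
  have hη0 : v ≠ 0 := by
    rintro rfl
    apply hv
    simp [h0]
  obtain ⟨q, hq⟩ := Submodule.exists_isCompl (Submodule.span ℂ {v})
  set T : (ℂ × q) ≃L[ℂ] E := LinearEquiv.toContinuousLinearEquiv
    (((LinearEquiv.toSpanNonzeroSingleton ℂ E v hη0).prodCongr (LinearEquiv.refl ℂ q)).trans
      (Submodule.prodEquivOfIsCompl _ _ hq)) with hT
  have hTa : ∀ (t : ℂ) (y : q), T (t, y) = t • v + (y : E) := by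
    intro t y
    rw [hT]
    simp [Submodule.coe_prodEquivOfIsCompl']
  set Φ : ℂ × q → E := fun x => a + T x with hΦ
  set Ψ : E → ℂ × q := fun x => T.symm (x - a) with hΨ
  have hΦΨ : ∀ z, Φ (Ψ z) = z := by
    intro z
    simp [hΦ, hΨ]
  have hΨΦ : ∀ z, Ψ (Φ z) = z := by
    intro z
    simp [hΦ, hΨ]
  have hΦa : ∀ x, AnalyticAt ℂ Φ x := fun x => analyticAt_const.add (T.analyticAt x)
  have hΨa : ∀ x, AnalyticAt ℂ Ψ x := fun x =>
    AnalyticAt.comp_of_eq (T.symm.analyticAt _) (analyticAt_id.sub analyticAt_const) rfl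
  have hΦ0 : Φ (0, 0) = a := by
    simp [hΦ]
  have hΨ0 : Ψ a = (0, 0) := by
    show T.symm (a - a) = 0
    rw [sub_self, map_zero]
  have tΨ : Tendsto Ψ (𝓝 a) (𝓝 (0, 0)) := by
    have := (hΨa a).continuousAt.tendsto
    rwa [hΨ0] at this
  have tΦ : Tendsto Φ (𝓝 (0, 0)) (𝓝 a) := by
    have := (hΦa (0, 0)).continuousAt.tendsto
    rwa [hΦ0] at this
  have hprim : Prim (fun x => w (Φ x)) ((0 : ℂ), (0 : q)) :=
    Prim.transfer (x := a) (Φ := Ψ) (Ψ := Φ) hΦ0 hΨ0 (hΨa a) (hΦa _) (Eventually.of_forall hΦΨ)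
      (Eventually.of_forall hΨΦ) hw
  obtain ⟨ρ, A, hρ, hρ0, hA, hid⟩ := slice_prod (j₀ := j₀) hprim (by
    intro h
    apply hv
    filter_upwards [h] with t ht
    simp only [hΦ] at ht
    rw [hTa] at ht
    simpa using ht)
  have hsnd : ∀ x : E, AnalyticAt ℂ (fun x => (Ψ x).2) x := fun x =>
    AnalyticAt.comp_of_eq analyticAt_snd (hΨa x) rfl
  have hΨ02 : (Ψ a).2 = 0 := by rw [hΨ0]
  refine ⟨fun x => ρ (Ψ x).2, fun j x => A j (Ψ x), AnalyticAt.comp_of_eq hρ (hsnd a) hΨ02,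
    fun j => AnalyticAt.comp_of_eq (hA j) (hΨa a) hΨ0, ?_, ?_, ?_⟩
  · filter_upwards [tΨ.eventually hid] with x hx
    rw [hx]
    simp only [hΦΨ]
  · intro h
    apply hρ0
    have h1 : Tendsto (fun y : q => Φ (0, y)) (𝓝 0) (𝓝 a) := by
      have h2 : Tendsto (fun y : q => ((0 : ℂ), y)) (𝓝 0) (𝓝 (0, 0)) := by
        have : ContinuousAt (fun y : q => ((0 : ℂ), y)) 0 := by fun_prop
        exact this
      exact tΦ.comp h2
    filter_upwards [h1.eventually h] with y hy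
    simpa [hΨΦ] using hy
  · intro x ζ
    have h1 : Ψ (x + ζ • v) = Ψ x + (ζ, 0) := by
      have h2 : T (ζ, 0) = ζ • v := by rw [hTa]; simp
      have h3 : x + ζ • v - a = (x - a) + T (ζ, 0) := by rw [h2]; abel
      show T.symm (x + ζ • v - a) = T.symm (x - a) + (ζ, 0)
      rw [h3, map_add, T.symm_apply_apply]
    show ρ (Ψ (x + ζ • v)).2 = ρ (Ψ x).2
    rw [h1]
    simp

end Vale.Agent.P301.H508
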