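import Mathlib.RingTheory.Polynomial.GaussLemma
import Mathlib.RingTheory.Localization.Integral
import Mathlib.RingTheory.PrincipalIdealDomain
import Mathlib.Algebra.Polynomial.FieldDivision

/-!
# P301, package SAT: greatest common divisor of monic polynomials over an integrally closed domain
-/

open Polynomial

namespace Vale.Agent.P301.H508

theorem gcd_monic {R : Type*} [CommRing R] [IsDomain R] [IsIntegrallyClosed R] {J : Type*}
    [Fintype J] [Nonempty J] (W : J → R[X]) (hW : ∀ j, (W j).Monic) :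
    ∃ (D : R[X]) (V A : J → R[X]) (ρ : R), D.Monic ∧ (∀ j, (V j).Monic) ∧
      (∀ j, W j = D * V j) ∧ ρ ≠ 0 ∧ C ρ = ∑ j, A j * V j := by
  classical
  set K := FractionRing R
  set φ : R →+* K := algebraMap R K
  have hinj : Function.Injective φ := IsFractionRing.injective R K
  have hinjP : Function.Injective (Polynomial.map φ) := Polynomial.map_injective φ hinj
  set I : Ideal K[X] := Ideal.span (Set.range fun j => (W j).map φ) with hI
  obtain ⟨g, hg⟩ := (inferInstance : I.IsPrincipal)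
  have hgI : g ∈ I := by
    rw [hg]
    exact Submodule.mem_span_singleton_self g
  have hdvd : ∀ j, g ∣ (W j).map φ := by
    intro j
    have h1 : (W j).map φ ∈ I := Ideal.subset_span ⟨j, rfl⟩
    rw [hg] at h1
    exact Ideal.mem_span_singleton.1 h1
  obtain ⟨j₀⟩ := ‹Nonempty J›
  have hg0 : g ≠ 0 := by
    rintro rfl
    exact ((hW j₀).map φ).ne_zero (zero_dvd_iff.1 (hdvd j₀))
  obtain ⟨D, hD⟩ := IsIntegrallyClosed.eq_map_mul_C_of_dvd K (hW j₀) (hdvd j₀)
  have hlc : g.leadingCoeff ≠ 0 := leadingCoeff_ne_zero.2 hg0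
  have hDmap : D.map φ = g * C (g.leadingCoeff)⁻¹ := by
    have h1 : g * C (g.leadingCoeff)⁻¹ = D.map φ * C (g.leadingCoeff) * C (g.leadingCoeff)⁻¹ := by
      rw [hD]
    rw [h1, mul_assoc, ← C_mul, mul_inv_cancel₀ hlc, C_1, mul_one]
  have hDm : D.Monic := by
    have h1 : (D.map φ).Monic := by
      rw [hDmap]
      exact monic_mul_leadingCoeff_inv hg0
    exact Polynomial.monic_of_injective hinj h1
  have hDdvd : ∀ j, D ∣ W j := by
    intro j
    rw [← Polynomial.map_dvd_map φ hinj hDm]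
    refine dvd_trans ?_ (hdvd j)
    rw [hDmap]
    refine ⟨C g.leadingCoeff, ?_⟩
    rw [mul_assoc, ← C_mul, inv_mul_cancel₀ hlc, C_1, mul_one]
  choose V hV using hDdvd
  have hVm : ∀ j, (V j).Monic := fun j => hDm.of_mul_monic_left ((hV j) ▸ hW j)
  have hgen : D.map φ ∈ I := by
    rw [hDmap]
    exact I.mul_mem_right _ hgI
  rw [hI, Ideal.mem_span_range_iff_exists_fun] at hgen
  obtain ⟨b, hb⟩ := hgen
  have hb1 : ∑ j, b j * (V j).map φ = 1 := by
    have h1 : D.map φ * (∑ j, b j * (V j).map φ) = D.map φ * 1 := by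
      rw [mul_one, Finset.mul_sum]
      refine Eq.trans (Finset.sum_congr rfl fun j _ => ?_) hb
      rw [hV j, Polynomial.map_mul]
      ring
    exact mul_left_cancel₀ (hDm.map φ).ne_zero h1
  have hN : ∀ j, ∃ c : R, c ≠ 0 ∧ ∃ a : R[X], a.map φ = C (φ c) * b j := by
    intro j
    obtain ⟨c, hc1, hc2⟩ :=
      IsLocalization.integerNormalization_spec (M := nonZeroDivisors R) (S := K) (b j)
    refine ⟨c, nonZeroDivisors.ne_zero hc1, _, hc2.trans ?_⟩
    rw [Algebra.smul_def]
    rfl
  choose c hc0 a ha using hN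
  refine ⟨D, V, fun j => C (∏ i ∈ Finset.univ.erase j, c i) * a j, ∏ i, c i, hDm, hVm, hV,
    Finset.prod_ne_zero_iff.2 fun i _ => hc0 i, ?_⟩
  apply hinjP
  rw [Polynomial.map_sum, Polynomial.map_C]
  have h2 : ∀ j ∈ (Finset.univ : Finset J),
      Polynomial.map φ (C (∏ i ∈ Finset.univ.erase j, c i) * a j * V j) =
        C (φ (∏ i, c i)) * (b j * (V j).map φ) := by
    intro j hj
    rw [Polynomial.map_mul, Polynomial.map_mul, ha, Polynomial.map_C,
      ← Finset.mul_prod_erase Finset.univ c hj, map_mul φ (c j), C_mul]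
    ring
  rw [Finset.sum_congr rfl h2, ← Finset.mul_sum, hb1, mul_one]

end Vale.Agent.P301.H508
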