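import Vale.Agent.P301.H508.Sat
import Vale.Agent.P301.H724.Kappa

/-!
# P301, package SAT: gluing of primitive vectors to a line bundle
-/

open scoped Manifold ContDiff ComplexOrder Topology
open Filter Metric Set

noncomputable section

namespace Vale.Agent.P301.H508

open Vale.Agent.P272.K Vale.Agent.P301.H599 Vale.Agent.P301.H724

variable {d : ℕ} {X : Type} [TopologicalSpace X] [ChartedSpace (Cm d) X]

/-- holomorphic at the point `x` -/
def AnX {F : Type*} [NormedAddCommGroup F] [NormedSpace ℂ F] (f : X → F) (x : X) : Prop :=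
  ∀ e : Chart d X, At e x → AnalyticAt ℂ (fun z => f (e.symm z)) (e x)

/-- primitive at the point `x` -/
def PrimX {K : Type*} [Fintype K] (v : X → K → ℂ) (x : X) : Prop :=
  ∀ e : Chart d X, At e x → Prim (fun z => v (e.symm z)) (e x)

theorem tsymm {e : Chart d X} {x : X} (he : At e x) : Tendsto e.symm (𝓝 (e x)) (𝓝 x) := by
  have := (e.symm.continuousAt (x := e x) (e.map_source he.2)).tendsto
  rwa [e.left_inv he.2] at this

theorem trans_inv {e e' : Chart d X} {x : X} (he : At e x) (he' : At e' x) :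
    ∀ᶠ z in 𝓝 (e x), e (e'.symm (e' (e.symm z))) = z := by
  filter_upwards [(tsymm he).eventually (e'.open_source.mem_nhds he'.2),
    e.open_target.mem_nhds (e.map_source he.2)] with z hz hz'
  rw [e'.left_inv hz, e.right_inv hz']

section basic

variable [IsManifold 𝓘(ℂ, Cm d) ω X]

theorem AnX.of_chart {F : Type*} [NormedAddCommGroup F] [NormedSpace ℂ F] {f : X → F} {x : X}
    {e : Chart d X} (he : At e x) (h : AnalyticAt ℂ (fun z => f (e.symm z)) (e x)) : AnX (d := d) f x := by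
  intro e' he'
  have h1 : AnalyticAt ℂ (fun z => e (e'.symm z)) (e' x) := analyticAt_trans he he'
  have h2 : AnalyticAt ℂ (fun z => f (e.symm (e (e'.symm z)))) (e' x) := by
    refine AnalyticAt.comp_of_eq (f := fun z => e (e'.symm z)) h h1 ?_
    rw [e'.left_inv he'.2]
  refine h2.congr ?_
  have h3 : ∀ᶠ z in 𝓝 (e' x), e'.symm z ∈ e.source :=
    (tsymm he').eventually (e.open_source.mem_nhds he.2)
  filter_upwards [h3] with z hz
  rw [e.left_inv hz]

theorem PrimX.of_chart {K : Type*} [Fintype K] {v : X → K → ℂ} {x : X}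
    {e : Chart d X} (he : At e x) (h : Prim (fun z => v (e.symm z)) (e x)) : PrimX (d := d) v x := by
  intro e' he'
  have h1 : AnalyticAt ℂ (fun z => e (e'.symm z)) (e' x) := analyticAt_trans he he'
  have h2 : AnalyticAt ℂ (fun z => e' (e.symm z)) (e x) := analyticAt_trans he' he
  have h3 := Prim.transfer (x := e x) (y := e' x) (Φ := fun z => e' (e.symm z))
    (Ψ := fun z => e (e'.symm z)) (by rw [e'.left_inv he'.2]) (by rw [e.left_inv he.2]) h2 h1
    (trans_inv he he') (trans_inv he' he) h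
  have h4 : ∀ᶠ z in 𝓝 (e' x), e'.symm z ∈ e.source :=
    (tsymm he').eventually (e.open_source.mem_nhds he.2)
  have h5 : (fun z => v (e.symm (e (e'.symm z)))) =ᶠ[𝓝 (e' x)] fun z => v (e'.symm z) := by
    filter_upwards [h4] with z hz
    rw [e.left_inv hz]
  refine ⟨h3.an.congr h5, fun h6 => h3.ne ?_, fun w hw hpar => ?_⟩
  · filter_upwards [h5, h6] with z h7 h8
    exact h7.trans h8
  · obtain ⟨t, ht, ht1⟩ := h3.dvd w hw (by
      filter_upwards [hpar, h5] with z h7 h8
      have h9 : v (e.symm (e (e'.symm z))) = v (e'.symm z) := h8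
      intro i j
      have h10 := h7 i j
      show w z i * v (e.symm (e (e'.symm z))) j = w z j * v (e.symm (e (e'.symm z))) i
      rw [h9]
      exact h10)
    refine ⟨t, ht, ?_⟩
    filter_upwards [ht1, h5] with z h7 h8
    rw [h7]
    have h9 : v (e.symm (e (e'.symm z))) = v (e'.symm z) := h8
    rw [h9]

end basic

/-- transfer of eventual statements to a chart -/
theorem ev_chart {p : X → Prop} {e : Chart d X} {x : X} (he : At e x) (h : ∀ᶠ y in 𝓝 x, p y) :
    ∀ᶠ z in 𝓝 (e x), p (e.symm z) := (tsymm he).eventually h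

theorem ev_of_chart {p : X → Prop} {e : Chart d X} {x : X} (he : At e x)
    (h : ∀ᶠ z in 𝓝 (e x), p (e.symm z)) : ∀ᶠ y in 𝓝 x, p y := by
  have h1 : Tendsto e (𝓝 x) (𝓝 (e x)) := (e.continuousAt he.2).tendsto
  filter_upwards [h1.eventually h, e.open_source.mem_nhds he.2] with y hy hy'
  rwa [e.left_inv hy'] at hy

theorem AnX.cont {F : Type*} [NormedAddCommGroup F] [NormedSpace ℂ F] {f : X → F} {x : X}
    (h : AnX (d := d) f x) : ContinuousAt f x := by
  have he : At (chartAt (Cm d) x) x := at_chartAt x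
  have h1 := (h _ he).continuousAt
  have h2 : ContinuousAt (fun y => f ((chartAt (Cm d) x).symm ((chartAt (Cm d) x) y))) x :=
    ContinuousAt.comp (g := fun z => f ((chartAt (Cm d) x).symm z)) h1
      ((chartAt (Cm d) x).continuousAt he.2)
  refine h2.congr ?_
  filter_upwards [(chartAt (Cm d) x).open_source.mem_nhds he.2] with y hy
  rw [(chartAt (Cm d) x).left_inv hy]

/-- uniqueness of the factor -/
theorem factor_unique {K : Type*} [Fintype K] {v : X → K → ℂ} {x : X} {h h' : X → ℂ}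
    (hv : ∃ e : Chart d X, At e x ∧ AnalyticAt ℂ (fun z => v (e.symm z)) (e x) ∧
      ¬ ∀ᶠ z in 𝓝 (e x), v (e.symm z) = 0)
    (hh : AnX (d := d) h x) (hh' : AnX (d := d) h' x)
    (he : ∀ᶠ y in 𝓝 x, ∀ k, h y * v y k = h' y * v y k) : ∀ᶠ y in 𝓝 x, h y = h' y := by
  obtain ⟨e, hex, hva, hvn⟩ := hv
  obtain ⟨k, hk⟩ := ne_iff.1 hvn
  refine ev_of_chart hex ?_
  have h1 := zero_or (an_comp hva k) ((hh e hex).sub (hh' e hex)) (by
    filter_upwards [ev_chart hex he] with z hz
    have h2 := hz k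
    show v (e.symm z) k * (h (e.symm z) - h' (e.symm z)) = 0
    linear_combination h2)
  filter_upwards [h1.resolve_left hk] with z hz
  exact sub_eq_zero.1 hz

section glue

variable {K : Type*} [Fintype K]

theorem PrimX.data {v : X → K → ℂ} {x : X} (h : PrimX (d := d) v x) :
    ∃ e : Chart d X, At e x ∧ AnalyticAt ℂ (fun z => v (e.symm z)) (e x) ∧
      ¬ ∀ᶠ z in 𝓝 (e x), v (e.symm z) = 0 :=
  ⟨_, at_chartAt x, (h _ (at_chartAt x)).an, (h _ (at_chartAt x)).ne⟩

variable [IsManifold 𝓘(ℂ, Cm d) ω X]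

/-- two primitive vectors which are parallel up to a diagonal twist differ by a unit. -/
theorem exists_unit {v w : X → K → ℂ} {D : X → K → ℂ} {x : X} (hv : PrimX (d := d) v x)
    (hw : PrimX (d := d) w x) (hD : ∀ k, AnX (d := d) (fun y => D y k) x) (hD0 : ∀ k, D x k ≠ 0)
    (hpar : ∀ᶠ y in 𝓝 x, ∀ k l, v y k * (D y l * w y l) = v y l * (D y k * w y k)) :
    ∃ h : X → ℂ, AnX (d := d) h x ∧ h x ≠ 0 ∧ ∀ᶠ y in 𝓝 x, ∀ k, v y k = h y * D y k * w y k := by
  set e : Chart d X := chartAt (Cm d) x with hedef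
  have he : At e x := at_chartAt x
  have hv' := hv e he
  have hw' := hw e he
  have hDa : ∀ k, AnalyticAt ℂ (fun z => D (e.symm z) k) (e x) := fun k => hD k e he
  have hDne : ∀ᶠ z in 𝓝 (e x), ∀ k, D (e.symm z) k ≠ 0 := by
    rw [eventually_all]
    intro k
    refine (hDa k).continuousAt.eventually_ne ?_
    rw [e.left_inv he.2]
    exact hD0 k
  have hpar' := ev_chart he hpar
  -- v is a multiple of D w
  obtain ⟨t, ht, ht1⟩ := hw'.dvd (fun z k => v (e.symm z) k / D (e.symm z) k) (by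
    rw [analyticAt_pi_iff]
    intro k
    refine (an_comp hv'.an k).div (hDa k) ?_
    exact (hDne.self_of_nhds) k) (by
    filter_upwards [hpar', hDne] with z h1 h2 i j
    have h3 := h1 i j
    have h4 := h2 i
    have h5 := h2 j
    rw [div_mul_eq_mul_div, div_mul_eq_mul_div, div_eq_div_iff h4 h5]
    linear_combination h3)
  obtain ⟨t', ht', ht1'⟩ := hv'.dvd (fun z k => D (e.symm z) k * w (e.symm z) k) (by
    rw [analyticAt_pi_iff]
    intro k
    exact (hDa k).mul (an_comp hw'.an k)) (by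
    filter_upwards [hpar'] with z h1 i j
    have h3 := h1 j i
    linear_combination h3)
  obtain ⟨k, hk⟩ := ne_iff.1 hv'.ne
  have h1 : ∀ᶠ z in 𝓝 (e x), 1 - t z * t' z = 0 := by
    refine (zero_or (an_comp hv'.an k) (analyticAt_const.sub (ht.mul ht')) ?_).resolve_left hk
    filter_upwards [ht1, ht1', hDne] with z h2 h3 h4
    have h5 := congrFun h2 k
    have h6 := congrFun h3 k
    simp only [Pi.smul_apply, smul_eq_mul] at h5 h6
    rw [div_eq_iff (h4 k)] at h5
    show v (e.symm z) k * (1 - t z * t' z) = 0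
    linear_combination h5 + t z * h6
  have h2 : t (e x) ≠ 0 := by
    intro h3
    have h4 := h1.self_of_nhds
    rw [h3, zero_mul, sub_zero] at h4
    exact one_ne_zero h4
  refine ⟨fun y => t (e y), AnX.of_chart he ?_, h2, ?_⟩
  · refine ht.congr ?_
    filter_upwards [e.open_target.mem_nhds (e.map_source he.2)] with z hz
    rw [e.right_inv hz]
  · refine ev_of_chart he ?_
    filter_upwards [ht1, hDne, e.open_target.mem_nhds (e.map_source he.2)] with z h3 h4 h5 k
    have h6 := congrFun h3 k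
    simp only [Pi.smul_apply, smul_eq_mul] at h6
    rw [div_eq_iff (h4 k)] at h6
    rw [h6, e.right_inv h5]
    ring

theorem AnX.eventually {F : Type*} [NormedAddCommGroup F] [NormedSpace ℂ F] [CompleteSpace F]
    {f : X → F} {x : X} (h : AnX (d := d) f x) : ∀ᶠ y in 𝓝 x, AnX (d := d) f y := by
  have he : At (chartAt (Cm d) x) x := at_chartAt x
  have h1 := (h _ he).eventually_analyticAt
  have h2 : Tendsto (chartAt (Cm d) x) (𝓝 x) (𝓝 (chartAt (Cm d) x x)) :=
    ((chartAt (Cm d) x).continuousAt he.2).tendsto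
  filter_upwards [h2.eventually h1, (chartAt (Cm d) x).open_source.mem_nhds he.2] with y hy hy'
  exact AnX.of_chart ⟨he.1, hy'⟩ hy

variable (d X K) in
/-- A family of primitive vectors on the members of an open cover, parallel up to diagonal twists. -/
structure PrimData where
  U : X → Set X
  isOpen : ∀ x, IsOpen (U x)
  mem : ∀ x, x ∈ U x
  T : X → X → K → ℂ
  prim : ∀ x z, z ∈ U x → PrimX (d := d) (T x) z
  D : X → X → X → K → ℂ
  D_an : ∀ x y z, z ∈ U x → z ∈ U y → ∀ k, AnX (d := d) (fun w => D x y w k) z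
  D_ne : ∀ x y z, z ∈ U x → z ∈ U y → ∀ k, D x y z k ≠ 0
  D_coc : ∀ x y w z, z ∈ U x → z ∈ U y → z ∈ U w → ∀ k, D x y z k * D y w z k = D x w z k
  par : ∀ x y z, z ∈ U x → z ∈ U y → ∀ᶠ z' in 𝓝 z, ∀ k l,
    T x z' k * (D x y z' l * T y z' l) = T x z' l * (D x y z' k * T y z' k)

/-- the line bundle of a family of primitive vectors. -/
theorem PrimData.glue (P : PrimData d X K) : ∃ W : LineBundle d X X, W.U = P.U ∧
    ∀ x y z, z ∈ P.U x → z ∈ P.U y → ∀ k, P.T x z k = W.g x y z * P.D x y z k * P.T y z k := by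
  classical
  have hH : ∀ x y z, z ∈ P.U x ∧ z ∈ P.U y → ∃ h : X → ℂ, AnX (d := d) h z ∧ h z ≠ 0 ∧
      ∀ᶠ w in 𝓝 z, ∀ k, P.T x w k = h w * P.D x y w k * P.T y w k := fun x y z hz =>
    exists_unit (P.prim x z hz.1) (P.prim y z hz.2) (P.D_an x y z hz.1 hz.2)
      (P.D_ne x y z hz.1 hz.2) (P.par x y z hz.1 hz.2)
  choose H hHa hH0 hHe using hH
  set g : X → X → X → ℂ := fun x y z => if hz : z ∈ P.U x ∧ z ∈ P.U y then H x y z hz z else 1
    with hg
  have hgz : ∀ x y z (hz : z ∈ P.U x ∧ z ∈ P.U y), g x y z = H x y z hz z := by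
    intro x y z hz
    rw [hg]
    simp only
    rw [dif_pos hz]
  -- the twisted vector
  have hdata : ∀ x y z, z ∈ P.U x → z ∈ P.U y → ∃ e : Chart d X, At e z ∧
      AnalyticAt ℂ (fun w => (fun v k => P.D x y v k * P.T y v k : X → K → ℂ) (e.symm w)) (e z) ∧
      ¬ ∀ᶠ w in 𝓝 (e z), (fun v k => P.D x y v k * P.T y v k : X → K → ℂ) (e.symm w) = 0 := by
    intro x y z hx hy
    obtain ⟨e, he, h1, h2⟩ := (P.prim y z hy).data
    refine ⟨e, he, ?_, fun h3 => h2 ?_⟩
    · rw [analyticAt_pi_iff]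
      intro k
      exact (P.D_an x y z hx hy k e he).mul (an_comp h1 k)
    · have h4 : ∀ᶠ w in 𝓝 (e z), e.symm w ∈ P.U x ∧ e.symm w ∈ P.U y :=
        ev_chart (p := fun w => w ∈ P.U x ∧ w ∈ P.U y) he (by
          filter_upwards [(P.isOpen x).mem_nhds hx, (P.isOpen y).mem_nhds hy] with w h8 h9
            using ⟨h8, h9⟩)
      filter_upwards [h3, h4] with w h5 h6
      funext k
      have h7 := congrFun h5 k
      exact (mul_eq_zero.1 h7).resolve_left (P.D_ne x y _ h6.1 h6.2 k)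
  have key : ∀ x y z (hz : z ∈ P.U x ∧ z ∈ P.U y), ∀ᶠ w in 𝓝 z, g x y w = H x y z hz w := by
    intro x y z hz
    have h1 : ∀ᶠ w in 𝓝 z, w ∈ P.U x ∧ w ∈ P.U y := by
      filter_upwards [(P.isOpen x).mem_nhds hz.1, (P.isOpen y).mem_nhds hz.2] with w h8 h9
        using ⟨h8, h9⟩
    filter_upwards [h1, (hHa x y z hz).eventually, (hHe x y z hz).eventually_nhds]
      with w hw h2 h3
    rw [hgz x y w hw]
    have h4 := factor_unique (v := fun v k => P.D x y v k * P.T y v k)
      (hdata x y w hw.1 hw.2) (hHa x y w hw) h2 (by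
      filter_upwards [hHe x y w hw, h3] with v h5 h6 k
      show H x y w hw v * (P.D x y v k * P.T y v k) = H x y z hz v * (P.D x y v k * P.T y v k)
      rw [← mul_assoc, ← mul_assoc, ← h5 k, ← h6 k])
    exact h4.self_of_nhds
  have hT : ∀ x y z, z ∈ P.U x → z ∈ P.U y → ∀ k,
      P.T x z k = g x y z * P.D x y z k * P.T y z k := by
    intro x y z hx hy k
    rw [hgz x y z ⟨hx, hy⟩]
    exact (hHe x y z ⟨hx, hy⟩).self_of_nhds k
  refine ⟨⟨P.U, P.isOpen, fun x => ⟨x, P.mem x⟩, g, ?_, ?_, ?_⟩, rfl, hT⟩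
  · intro i j e x he hi hj
    refine (hHa i j x ⟨hi, hj⟩ e he).congr ?_
    filter_upwards [ev_chart he (key i j x ⟨hi, hj⟩)] with z hz
    exact hz.symm
  · intro i j x hi hj
    rw [hgz i j x ⟨hi, hj⟩]
    exact hH0 i j x ⟨hi, hj⟩
  · intro i j k x hi hj hk
    have h1 := factor_unique (v := fun y l => P.D i k y l * P.T k y l)
      (h := fun y => H i j x ⟨hi, hj⟩ y * H j k x ⟨hj, hk⟩ y)
      (h' := H i k x ⟨hi, hk⟩) (hdata i k x hi hk)
      (fun e he => (hHa i j x ⟨hi, hj⟩ e he).mul (hHa j k x ⟨hj, hk⟩ e he))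
      (hHa i k x ⟨hi, hk⟩) (by
      have h2 : ∀ᶠ y in 𝓝 x, y ∈ P.U i ∧ y ∈ P.U j ∧ y ∈ P.U k := by
        filter_upwards [(P.isOpen i).mem_nhds hi, (P.isOpen j).mem_nhds hj,
          (P.isOpen k).mem_nhds hk] with w h8 h9 h10 using ⟨h8, h9, h10⟩
      filter_upwards [hHe i j x ⟨hi, hj⟩, hHe j k x ⟨hj, hk⟩, hHe i k x ⟨hi, hk⟩, h2]
        with y h3 h4 h5 h6 l
      have h7 := P.D_coc i j k y h6.1 h6.2.1 h6.2.2 l
      have h8 := h3 l
      rw [h4 l] at h8
      have h9 := h5 l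
      show H i j x ⟨hi, hj⟩ y * H j k x ⟨hj, hk⟩ y * (P.D i k y l * P.T k y l) =
        H i k x ⟨hi, hk⟩ y * (P.D i k y l * P.T k y l)
      rw [← h7] at h9 ⊢
      linear_combination h9 - h8)
    rw [hgz i j x ⟨hi, hj⟩, hgz j k x ⟨hj, hk⟩, hgz i k x ⟨hi, hk⟩]
    exact h1.self_of_nhds

end glue

end Vale.Agent.P301.H508
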