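import Vale.Agent.P301.H508.Prim
import Vale.Agent.P301.H508.Alg
import Vale.Agent.P267.H823.Weier

/-!
# P301, package SAT: local saturation
-/

open Set Filter Metric Topology Polynomial

namespace Vale.Agent.P301.H508

section poly

variable {Y : Type*} [NormedAddCommGroup Y] [NormedSpace ℂ Y] {p : Y}

omit [NormedSpace ℂ Y] in
theorem tsnd (p : Y) : Tendsto (Prod.snd : ℂ × Y → Y) (𝓝 ((0 : ℂ), p)) (𝓝 p) :=
  continuousAt_snd

/-- the germs at `(0, p)` which do not depend on the first variable -/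
noncomputable def iotaG (p : Y) : Og p →+* Germ (𝓝 ((0 : ℂ), p)) ℂ where
  toFun g := ((fun x : ℂ × Y => rep g x.2 : ℂ × Y → ℂ) : Germ (𝓝 ((0 : ℂ), p)) ℂ)
  map_one' := Germ.coe_eq.2 ((tsnd p).eventually rep_one)
  map_zero' := Germ.coe_eq.2 ((tsnd p).eventually rep_zero)
  map_mul' g h := Germ.coe_eq.2
    ((tsnd p).eventually (rep_mul g h))
  map_add' g h := Germ.coe_eq.2
    ((tsnd p).eventually (rep_add g h))

/-- polynomials as germs -/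
noncomputable def PhiG (p : Y) : (Og p)[X] →+* Germ (𝓝 ((0 : ℂ), p)) ℂ :=
  eval₂RingHom (iotaG p) ((Prod.fst : ℂ × Y → ℂ) : Germ (𝓝 ((0 : ℂ), p)) ℂ)

/-- the values of the coefficients -/
noncomputable def pol (P : (Og p)[X]) (y : Y) : ℂ[X] :=
  ∑ i ∈ Finset.range (P.natDegree + 1), C (rep (P.coeff i) y) * X ^ i

/-- polynomials as functions -/
noncomputable def fn (P : (Og p)[X]) (x : ℂ × Y) : ℂ := (pol P x.2).eval x.1

theorem fn_eq (P : (Og p)[X]) (x : ℂ × Y) :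
    fn P x = ∑ i ∈ Finset.range (P.natDegree + 1), rep (P.coeff i) x.2 * x.1 ^ i := by
  unfold fn pol
  rw [eval_finsetSum]
  simp

theorem PhiG_eq (P : (Og p)[X]) : ((fn P : ℂ × Y → ℂ) : Germ (𝓝 ((0 : ℂ), p)) ℂ) = PhiG p P := by
  have h1 : fn P = ∑ i ∈ Finset.range (P.natDegree + 1),
      (fun x : ℂ × Y => rep (P.coeff i) x.2) * (Prod.fst : ℂ × Y → ℂ) ^ i := by
    funext x
    rw [fn_eq, Finset.sum_apply]
    rfl
  have h2 : PhiG p P = eval₂ (iotaG p) ((Prod.fst : ℂ × Y → ℂ) : Germ (𝓝 ((0 : ℂ), p)) ℂ) P := rfl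
  rw [h2, eval₂_eq_sum_range, h1]
  exact map_sum (Germ.coeRingHom (𝓝 ((0 : ℂ), p))) _ _

theorem fn_analytic (P : (Og p)[X]) (z : ℂ) : AnalyticAt ℂ (fn P) (z, p) := by
  have h1 : fn P = fun x : ℂ × Y => ∑ i ∈ Finset.range (P.natDegree + 1),
      rep (P.coeff i) x.2 * x.1 ^ i := funext (fn_eq P)
  rw [h1]
  refine Finset.analyticAt_fun_sum _ fun i _ => ?_
  refine AnalyticAt.mul ?_ (analyticAt_fst.pow i)
  exact AnalyticAt.comp_of_eq (rep_analytic _) analyticAt_snd rfl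

theorem fn_mul (P Q : (Og p)[X]) :
    ∀ᶠ x in 𝓝 ((0 : ℂ), p), fn (P * Q) x = fn P x * fn Q x := by
  refine Germ.coe_eq.1 ?_
  rw [PhiG_eq, map_mul, ← PhiG_eq, ← PhiG_eq]
  rfl

theorem pol_monic {P : (Og p)[X]} (hP : P.Monic) : ∀ᶠ y in 𝓝 p, pol P y ≠ 0 := by
  filter_upwards [rep_one (p := p)] with y hy h
  have h1 : (pol P y).coeff P.natDegree = 1 := by
    unfold pol
    rw [finsetSum_coeff]
    simp only [coeff_C_mul_X_pow]
    rw [Finset.sum_ite_eq, if_pos (Finset.self_mem_range_succ _), hP.coeff_natDegree]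
    exact hy
  rw [h, coeff_zero] at h1
  exact zero_ne_one h1

theorem fn_line {P : (Og p)[X]} (hP : P.Monic) :
    ∀ᶠ x : ℂ × Y in 𝓝 ((0 : ℂ), p), ¬ ∀ᶠ z in 𝓝 x.1, fn P (z, x.2) = 0 := by
  have hsnd : Tendsto (Prod.snd : ℂ × Y → Y) (𝓝 (0, p)) (𝓝 p) := continuousAt_snd
  filter_upwards [hsnd.eventually (pol_monic hP)] with x hx h
  apply hx
  refine Polynomial.eq_zero_of_infinite_isRoot _ ?_
  have h1 : {z | fn P (z, x.2) = 0} ∈ 𝓝 x.1 := h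
  exact (infinite_of_mem_nhds x.1 h1).mono fun z hz => hz

/-- the polynomial with given coefficients -/
noncomputable def mkP (b : ℕ) (c : ℕ → Y → ℂ) (hc : ∀ i, AnalyticAt ℂ (c i) p) : (Og p)[X] :=
  X ^ b + ∑ i ∈ Finset.range b, C (mkg (c i) (hc i)) * X ^ i

theorem mkP_monic (b : ℕ) (c : ℕ → Y → ℂ) (hc : ∀ i, AnalyticAt ℂ (c i) p) :
    (mkP b c hc).Monic := by
  unfold mkP
  refine monic_X_pow_add ?_
  rw [degree_lt_iff_coeff_zero]
  intro m hm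
  rw [finsetSum_coeff]
  simp only [coeff_C_mul_X_pow]
  rw [Finset.sum_ite_eq, if_neg]
  rw [Finset.mem_range]
  omega

theorem fn_mkP (b : ℕ) (c : ℕ → Y → ℂ) (hc : ∀ i, AnalyticAt ℂ (c i) p) :
    ∀ᶠ x in 𝓝 ((0 : ℂ), p), fn (mkP b c hc) x =
      x.1 ^ b + ∑ i ∈ Finset.range b, c i x.2 * x.1 ^ i := by
  refine Germ.coe_eq.1 ?_
  rw [PhiG_eq]
  have h1 : PhiG p (mkP b c hc) = ((Prod.fst : ℂ × Y → ℂ) : Germ (𝓝 ((0 : ℂ), p)) ℂ) ^ b +
      ∑ i ∈ Finset.range b, iotaG p (mkg (c i) (hc i)) *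
        ((Prod.fst : ℂ × Y → ℂ) : Germ (𝓝 ((0 : ℂ), p)) ℂ) ^ i := by
    unfold mkP PhiG
    rw [map_add, map_pow, map_sum]
    simp only [coe_eval₂RingHom, eval₂_X, map_mul, map_pow, eval₂_C]
  have h2 : ∀ i, iotaG p (mkg (c i) (hc i)) =
      ((fun x : ℂ × Y => c i x.2 : ℂ × Y → ℂ) : Germ (𝓝 ((0 : ℂ), p)) ℂ) := fun i =>
    Germ.coe_eq.2 ((tsnd p).eventually (rep_mkg (hc i)))
  rw [h1]
  simp only [h2]
  have h3 : (fun x : ℂ × Y => x.1 ^ b + ∑ i ∈ Finset.range b, c i x.2 * x.1 ^ i) =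
      (Prod.fst : ℂ × Y → ℂ) ^ b + ∑ i ∈ Finset.range b,
        (fun x : ℂ × Y => c i x.2) * (Prod.fst : ℂ × Y → ℂ) ^ i := by
    funext x
    rw [Pi.add_apply, Finset.sum_apply]
    rfl
  rw [h3]
  have h4 := map_add (Germ.coeRingHom (𝓝 ((0 : ℂ), p))) ((Prod.fst : ℂ × Y → ℂ) ^ b)
    (∑ i ∈ Finset.range b, (fun x : ℂ × Y => c i x.2) * (Prod.fst : ℂ × Y → ℂ) ^ i)
  rw [map_sum] at h4
  exact h4.symm

end poly

end Vale.Agent.P301.H508
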