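import Vale.Agent.P301.H508.Glue

/-!
# P301, package SAT: the moving part of a family of proportional sections
-/

open scoped Manifold ContDiff ComplexOrder Topology
open Filter Metric Set

noncomputable section

namespace Vale.Agent.P301.H508

open Vale.Agent.P272.K Vale.Agent.P301.H599 Vale.Agent.P301.H724

variable {d : ℕ} {X : Type} [TopologicalSpace X] [ChartedSpace (Cm d) X] {ι : Type}

theorem Prim.congr {E : Type*} [NormedAddCommGroup E] [NormedSpace ℂ E] {κ : Type*} [Fintype κ]
    {v w : E → κ → ℂ} {a : E} (h : Prim v a) (he : v =ᶠ[𝓝 a] w) : Prim w a := by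
  refine ⟨h.an.congr he, fun h1 => h.ne ?_, fun u hu hpar => ?_⟩
  · filter_upwards [he, h1] with x h2 h3
    rw [h2, h3]
  · obtain ⟨t, ht, ht1⟩ := h.dvd u hu (by
      filter_upwards [he, hpar] with x h2 h3 i j
      rw [h2]
      exact h3 i j)
    refine ⟨t, ht, ?_⟩
    filter_upwards [he, ht1] with x h2 h3
    rw [h3, h2]

/-- local construction: on a small ball around `e x` the vectors `(σ_k)_k` are multiples of a
primitive vector. -/
theorem local_prim [PreconnectedSpace X] {K A : Type} [Fintype K] [Fintype A]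
    (L : LineBundle d X ι) {Λ : Chart d X → Chart d X → X → Matrix A A ℂ} (mm : K → ℕ)
    (σ : K → ι → Chart d X → Cm d → A → ℂ) (hσ : ∀ k, IsSec L Λ (mm k) (σ k))
    (hprop : ∀ k l, Prop2 L (σ k) (σ l)) (hne : ∃ k x, Nz L (σ k) x) (x : X) :
    ∃ (i : ι) (t : Cm d → K → ℂ) (R : ℝ), x ∈ L.U i ∧ 0 < R ∧
      ball (chartAt (Cm d) x x) R ⊆
        (chartAt (Cm d) x).target ∩ (chartAt (Cm d) x).symm ⁻¹' L.U i ∧
      (∀ z ∈ ball (chartAt (Cm d) x x) R, Prim t z) ∧
      ∀ z ∈ ball (chartAt (Cm d) x x) R, ∀ k l a,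
        t z l * σ k i (chartAt (Cm d) x) z a = t z k * σ l i (chartAt (Cm d) x) z a := by
  classical
  set e : Chart d X := chartAt (Cm d) x with hedef
  have he : At e x := at_chartAt x
  obtain ⟨i, hi⟩ := L.cover x
  obtain ⟨k₀, y₀, hy₀⟩ := hne
  obtain ⟨a₀, hfreq, -⟩ := exists_comp (hσ k₀) ⟨y₀, hy₀⟩ he hi
  set w : Cm d → K → ℂ := fun z k => σ k i e z a₀ with hw
  have hwa : AnalyticAt ℂ w (e x) := by
    rw [analyticAt_pi_iff]
    intro k
    exact (hσ k).holo i e x he hi a₀
  have hwn : ¬ ∀ᶠ z in 𝓝 (e x), w z = 0 := by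
    intro h
    apply hfreq
    filter_upwards [h] with z hz
    have h1 := congrFun hz k₀
    simpa [hw] using h1
  obtain ⟨R₀, hR₀, hb₀⟩ := exists_ball L he hi
  obtain ⟨s, t, hs, ht, hp⟩ := sat hwa hwn
  have hcenter : Prim t (e x) := hp.self_of_nhds
  have hsn : ¬ ∀ᶠ z in 𝓝 (e x), s z = 0 := by
    intro h
    apply hwn
    filter_upwards [h, ht] with z h1 h2
    rw [h2, h1, zero_smul]
  have hball : ∀ᶠ z in 𝓝 (e x), z ∈ ball (e x) R₀ := isOpen_ball.mem_nhds (mem_ball_self hR₀)
  have hpar : ∀ k l a, ∀ᶠ z in 𝓝 (e x), t z l * σ k i e z a - t z k * σ l i e z a = 0 := by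
    intro k l a
    refine (zero_or hs ?_ ?_).resolve_left hsn
    · exact ((an_comp hcenter.an l).mul ((hσ k).holo i e x he hi a)).sub
        ((an_comp hcenter.an k).mul ((hσ l).holo i e x he hi a))
    · filter_upwards [ht, hball] with z h1 h2
      have h3 := hb₀ h2
      have h4 : At e (e.symm z) := ⟨he.1, e.map_target h3.1⟩
      have h5 := hprop k l i e (e.symm z) h4 h3.2 a a₀
      rw [e.right_inv h3.1] at h5
      have h6 : σ k i e z a₀ = s z * t z k := by
        have := congrFun h1 k
        simpa [hw] using this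
      have h7 : σ l i e z a₀ = s z * t z l := by
        have := congrFun h1 l
        simpa [hw] using this
      rw [h6, h7] at h5
      linear_combination h5
  have hpar' : ∀ᶠ z in 𝓝 (e x), ∀ k l a, t z l * σ k i e z a - t z k * σ l i e z a = 0 := by
    rw [eventually_all]; intro k
    rw [eventually_all]; intro l
    rw [eventually_all]; intro a
    exact hpar k l a
  obtain ⟨R, hR, hb⟩ := Metric.eventually_nhds_iff_ball.1 (hball.and (hp.and hpar'))
  refine ⟨i, t, R, hi, hR, fun z hz => hb₀ (hb z hz).1, fun z hz => (hb z hz).2.1, ?_⟩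
  intro z hz k l a
  exact sub_eq_zero.1 ((hb z hz).2.2 k l a)

/-- The moving part of a finite family of pairwise proportional sections `σ k` of `V ⊗ L^(m k)`:
a line bundle `W` and sections `t k` of `W ⊗ L^(m k)` without common divisor, such that
`t l σ k = t k σ l`. -/
theorem moving [PreconnectedSpace X] [IsManifold 𝓘(ℂ, Cm d) ω X] {K A : Type} [Fintype K]
    [Fintype A] (L : LineBundle d X ι) {Λ : Chart d X → Chart d X → X → Matrix A A ℂ} (mm : K → ℕ)
    (σ : K → ι → Chart d X → Cm d → A → ℂ) (hσ : ∀ k, IsSec L Λ (mm k) (σ k))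
    (hprop : ∀ k l, Prop2 L (σ k) (σ l)) (hne : ∃ k x, Nz L (σ k) x) :
    ∃ (i : X → ι) (W : LineBundle d X X) (t : X → X → K → ℂ),
      (∀ x, x ∈ W.U x) ∧ (∀ x, W.U x ⊆ L.U (i x)) ∧
      (∀ x z, z ∈ W.U x → PrimX (d := d) (t x) z) ∧
      (∀ x y z, z ∈ W.U x → z ∈ W.U y → ∀ k,
        t x z k = W.g x y z * L.g (i x) (i y) z ^ mm k * t y z k) ∧
      (∀ x e y, At e y → y ∈ W.U x → ∀ k l a,
        t x y l * σ k (i x) e (e y) a = t x y k * σ l (i x) e (e y) a) := by
  classical
  choose i t R hi hR hb hp hpar using local_prim L mm σ hσ hprop hne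
  set c : X → Chart d X := fun x => chartAt (Cm d) x with hc
  have hat : ∀ x, At (c x) x := fun x => at_chartAt x
  set U : X → Set X := fun x => (c x).source ∩ (c x) ⁻¹' ball (c x x) (R x) with hU
  have hUo : ∀ x, IsOpen (U x) := fun x => (c x).isOpen_inter_preimage isOpen_ball
  have hUat : ∀ x y, y ∈ U x → At (c x) y := fun x y hy => ⟨(hat x).1, hy.1⟩
  have hUL : ∀ x y, y ∈ U x → y ∈ L.U (i x) := by
    intro x y hy
    have h1 := (hb x hy.2).2
    have h2 : (c x).symm ((c x) y) ∈ L.U (i x) := h1
    rwa [(c x).left_inv hy.1] at h2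
  set T : X → X → K → ℂ := fun x y k => t x (c x y) k with hT
  have hprim : ∀ x z, z ∈ U x → PrimX (d := d) (T x) z := by
    intro x z hz
    refine PrimX.of_chart (hUat x z hz) ?_
    refine (hp x (c x z) hz.2).congr ?_
    filter_upwards [(c x).open_target.mem_nhds ((c x).map_source hz.1)] with w hw
    funext k
    rw [hT]
    simp only
    rw [(c x).right_inv hw]
  have hrel : ∀ x e y, At e y → y ∈ U x → ∀ k l a,
      T x y l * σ k (i x) e (e y) a = T x y k * σ l (i x) e (e y) a := by
    intro x e y he hy k l a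
    have h1 : ∀ b, t x (c x y) l * σ k (i x) (c x) (c x y) b =
        t x (c x y) k * σ l (i x) (c x) (c x y) b := fun b => hpar x (c x y) hy.2 k l b
    have h2 : t x (c x y) l • σ k (i x) (c x) (c x y) = t x (c x y) k • σ l (i x) (c x) (c x y) := by
      funext b
      exact h1 b
    have h3 := congrFun (congrArg (Λ e (c x) y).mulVec h2) a
    rw [Matrix.mulVec_smul, Matrix.mulVec_smul, ← (hσ k).chV (i x) e (c x) y he (hUat x y hy)
      (hUL x y hy), ← (hσ l).chV (i x) e (c x) y he (hUat x y hy) (hUL x y hy)] at h3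
    exact h3
  have hgan : ∀ x y z, z ∈ U x → z ∈ U y → AnX (d := d) (L.g (i x) (i y)) z := fun x y z hx hy e he =>
    L.holo (i x) (i y) e z he (hUL x z hx) (hUL y z hy)
  let P : PrimData d X K :=
    { U := U
      isOpen := hUo
      mem := fun x => ⟨(hat x).2, mem_ball_self (hR x)⟩
      T := T
      prim := hprim
      D := fun x y z k => L.g (i x) (i y) z ^ mm k
      D_an := fun x y z hx hy k e he => (hgan x y z hx hy e he).pow _
      D_ne := fun x y z hx hy k => pow_ne_zero _ (L.ne_zero _ _ _ (hUL x z hx) (hUL y z hy))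
      D_coc := by
        intro x y w z hx hy hw k
        rw [← mul_pow, L.cocycle _ _ _ _ (hUL x z hx) (hUL y z hy) (hUL w z hw)]
      par := by
        intro x y z hx hy
        have hbase : ∀ z', z' ∈ U x → z' ∈ U y → (∃ k, Nz L (σ k) z') → ∀ k l,
            T x z' k * (L.g (i x) (i y) z' ^ mm l * T y z' l) =
              T x z' l * (L.g (i x) (i y) z' ^ mm k * T y z' k) := by
          rintro z' hx' hy' ⟨k₁, hk₁⟩ k l
          have he := hat z'
          obtain ⟨a, ha⟩ := Function.ne_iff.1 (hk₁ (i x) (c z') he (hUL x z' hx'))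
          have ha' : σ k₁ (i x) (c z') (c z' z') a ≠ 0 := ha
          have hx1 : ∀ k, T x z' k₁ * σ k (i x) (c z') (c z' z') a =
              T x z' k * σ k₁ (i x) (c z') (c z' z') a := fun k =>
            hrel x (c z') z' he hx' k k₁ a
          have hy1 : ∀ k, T y z' k₁ * σ k (i y) (c z') (c z' z') a =
              T y z' k * σ k₁ (i y) (c z') (c z' z') a := fun k =>
            hrel y (c z') z' he hy' k k₁ a
          have hch : ∀ k, σ k (i x) (c z') (c z' z') a =
              L.g (i x) (i y) z' ^ mm k * σ k (i y) (c z') (c z' z') a := by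
            intro k
            have h1 := congrFun ((hσ k).chL (i x) (i y) (c z') z' he (hUL x z' hx') (hUL y z' hy')) a
            simpa using h1
          have hg : L.g (i x) (i y) z' ≠ 0 := L.ne_zero _ _ _ (hUL x z' hx') (hUL y z' hy')
          have hS : σ k₁ (i y) (c z') (c z' z') a ≠ 0 := by
            intro h0
            apply ha'
            rw [hch k₁, h0, mul_zero]
          have e1 := hx1 k
          have e2 := hx1 l
          have e3 := hy1 k
          have e4 := hy1 l
          have e5 := hch k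
          have e6 := hch l
          have e7 := hch k₁
          have h9 : σ k₁ (i x) (c z') (c z' z') a * σ k₁ (i y) (c z') (c z' z') a *
              (T x z' k * (L.g (i x) (i y) z' ^ mm l * T y z' l) -
              T x z' l * (L.g (i x) (i y) z' ^ mm k * T y z' k)) = 0 := by
            calc _ = (T x z' k * σ k₁ (i x) (c z') (c z' z') a) *
                  (L.g (i x) (i y) z' ^ mm l * (T y z' l * σ k₁ (i y) (c z') (c z' z') a)) -
                  (T x z' l * σ k₁ (i x) (c z') (c z' z') a) *
                  (L.g (i x) (i y) z' ^ mm k * (T y z' k * σ k₁ (i y) (c z') (c z' z') a)) := by ring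
              _ = (T x z' k₁ * σ k (i x) (c z') (c z' z') a) *
                  (L.g (i x) (i y) z' ^ mm l * (T y z' k₁ * σ l (i y) (c z') (c z' z') a)) -
                  (T x z' k₁ * σ l (i x) (c z') (c z' z') a) *
                  (L.g (i x) (i y) z' ^ mm k * (T y z' k₁ * σ k (i y) (c z') (c z' z') a)) := by
                  rw [e1, e2, e3, e4]
              _ = 0 := by
                  rw [e5, e6]
                  ring
          have h10 := (mul_eq_zero.1 h9).resolve_left (mul_ne_zero ha' hS)
          exact sub_eq_zero.1 h10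
        filter_upwards [(hUo x).mem_nhds hx, (hUo y).mem_nhds hy] with z' hx' hy' k l
        have hcont : ContinuousAt (fun z' => T x z' k * (L.g (i x) (i y) z' ^ mm l * T y z' l) -
              T x z' l * (L.g (i x) (i y) z' ^ mm k * T y z' k)) z' := by
          have hTc : ∀ x z k, z ∈ U x → ContinuousAt (fun z' => T x z' k) z := by
            intro x z k hz
            refine AnX.cont (d := d) (fun e he => ?_)
            exact an_comp (hprim x z hz e he).an k
          have hg := (hgan x y z' hx' hy').cont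
          exact ((hTc x z' k hx').mul ((hg.pow _).mul (hTc y z' l hy'))).sub
            ((hTc x z' l hx').mul ((hg.pow _).mul (hTc y z' k hy')))
        obtain ⟨k₀, y₀, hy₀⟩ := hne
        have h1 : ∃ᶠ y in 𝓝 z', Nz L (σ k₀) y :=
          mem_closure_iff_frequently.1 ((hσ k₀).dense ⟨y₀, hy₀⟩ z')
        have h2 := eq_zero_of_freq hcont (by
          refine (h1.and_eventually
            (inter_mem ((hUo x).mem_nhds hx') ((hUo y).mem_nhds hy'))).mono ?_
          rintro v ⟨hv, hvx, hvy⟩
          rw [hbase v hvx hvy ⟨k₀, hv⟩ k l, sub_self])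
        exact sub_eq_zero.1 h2 }
  obtain ⟨W, hWU, hW⟩ := P.glue
  refine ⟨i, W, T, ?_, ?_, ?_, ?_, ?_⟩
  · intro x
    rw [hWU]
    exact ⟨(hat x).2, mem_ball_self (hR x)⟩
  · intro x y hy
    rw [hWU] at hy
    exact hUL x y hy
  · intro x z hz
    rw [hWU] at hz
    exact hprim x z hz
  · intro x y z hx hy k
    rw [hWU] at hx hy
    exact hW x y z hx hy k
  · intro x e y he hy
    rw [hWU] at hy
    exact hrel x e y he hy

end Vale.Agent.P301.H508
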