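import Vale.Agent.P301.H508.Germs

/-!
# P301, package SAT: primitive holomorphic vectors
-/

open Set Filter Metric Topology

namespace Vale.Agent.P301.H508

variable {E : Type*} [NormedAddCommGroup E] [NormedSpace ℂ E] {κ : Type*} [Fintype κ]

/-- `v` and `e` are parallel near `y`. -/
def Par (v e : E → κ → ℂ) (y : E) : Prop := ∀ᶠ x in 𝓝 y, ∀ i j, v x i * e x j = v x j * e x i

/-- The holomorphic vector `e` is primitive at `y`: every holomorphic vector parallel to `e` near `y`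
is a holomorphic multiple of `e`. -/
structure Prim (e : E → κ → ℂ) (y : E) : Prop where
  an : AnalyticAt ℂ e y
  ne : ¬ ∀ᶠ x in 𝓝 y, e x = 0
  dvd : ∀ v : E → κ → ℂ, AnalyticAt ℂ v y → Par v e y →
    ∃ t : E → ℂ, AnalyticAt ℂ t y ∧ ∀ᶠ x in 𝓝 y, v x = t x • e x

omit [NormedSpace ℂ E] in
theorem ne_iff {e : E → κ → ℂ} {y : E} :
    (¬ ∀ᶠ x in 𝓝 y, e x = 0) ↔ ∃ j, ¬ ∀ᶠ x in 𝓝 y, e x j = 0 := by
  rw [← not_forall, not_iff_not]
  constructor
  · intro h j
    filter_upwards [h] with x hx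
    rw [hx]
    rfl
  · intro h
    filter_upwards [eventually_all.2 h] with x hx
    exact funext hx

theorem an_comp {e : E → κ → ℂ} {y : E} (h : AnalyticAt ℂ e y) (j : κ) :
    AnalyticAt ℂ (fun x => e x j) y :=
  (analyticAt_pi_iff.1 h) j

/-- from one component to all components -/
theorem par_all {e v : E → κ → ℂ} {y : E} {j₀ : κ} {t : E → ℂ} (he : AnalyticAt ℂ e y)
    (hv : AnalyticAt ℂ v y) (hpar : Par v e y) (hne : ¬ ∀ᶠ x in 𝓝 y, e x j₀ = 0)
    (ht : AnalyticAt ℂ t y) (h : ∀ᶠ x in 𝓝 y, v x j₀ = t x * e x j₀) :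
    ∀ᶠ x in 𝓝 y, v x = t x • e x := by
  have h1 : ∀ j, ∀ᶠ x in 𝓝 y, v x j - t x * e x j = 0 := by
    intro j
    refine (zero_or (an_comp he j₀) ((an_comp hv j).sub (ht.mul (an_comp he j))) ?_).resolve_left hne
    filter_upwards [hpar, h] with x h1 h2
    have h3 := h1 j j₀
    have h4 : e x j₀ * (v x j - t x * e x j) = v x j * e x j₀ - (t x * e x j₀) * e x j := by ring
    show e x j₀ * (v x j - t x * e x j) = 0
    rw [h4, ← h2, h3, sub_self]
  filter_upwards [eventually_all.2 h1] with x hx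
  funext j
  exact sub_eq_zero.1 (hx j)

/-- if a component does not vanish at the point, the vector is primitive. -/
theorem prim_of_ne {e : E → κ → ℂ} {y : E} {j₀ : κ} (he : AnalyticAt ℂ e y) (h0 : e y j₀ ≠ 0) :
    Prim e y := by
  have hne : ¬ ∀ᶠ x in 𝓝 y, e x j₀ = 0 := fun h => h0 h.self_of_nhds
  refine ⟨he, ne_iff.2 ⟨j₀, hne⟩, fun v hv hpar => ?_⟩
  have ht : AnalyticAt ℂ (fun x => v x j₀ / e x j₀) y := (an_comp hv j₀).div (an_comp he j₀) h0
  refine ⟨_, ht, par_all he hv hpar hne ht ?_⟩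
  filter_upwards [(an_comp he j₀).continuousAt.eventually_ne h0] with x hx
  field_simp

variable {Y : Type*} [NormedAddCommGroup Y] [NormedSpace ℂ Y] [FiniteDimensional ℂ Y]

/-- the criterion for primitivity on a neighbourhood. -/
theorem prim_of_rho {e : ℂ × Y → κ → ℂ} {p₀ : Y} (he : AnalyticAt ℂ e (0, p₀)) {ρ : Y → ℂ}
    (hρ : AnalyticAt ℂ ρ p₀) (hρ0 : ¬ ∀ᶠ y in 𝓝 p₀, ρ y = 0) {A : κ → ℂ × Y → ℂ}
    (hA : ∀ j, AnalyticAt ℂ (A j) (0, p₀))
    (hid : ∀ᶠ x : ℂ × Y in 𝓝 (0, p₀), ρ x.2 = ∑ j, A j x * e x j) {j₀ : κ}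
    (hreg : ∀ᶠ x : ℂ × Y in 𝓝 (0, p₀), ¬ ∀ᶠ z in 𝓝 x.1, e (z, x.2) j₀ = 0) :
    ∀ᶠ x in 𝓝 ((0 : ℂ), p₀), Prim e x := by
  have hρ1 : ∀ᶠ y in 𝓝 p₀, AnalyticAt ℂ ρ y ∧ ¬ ∀ᶠ z in 𝓝 y, ρ z = 0 := by
    obtain ⟨r, hr, hb⟩ := Metric.eventually_nhds_iff_ball.1 hρ.eventually_analyticAt
    filter_upwards [ball_mem_nhds p₀ hr] with y hy
    refine ⟨hb y hy, fun h => hρ0 ?_⟩
    have h3 := AnalyticOnNhd.eqOn_zero_of_preconnected_of_eventuallyEq_zero
      (fun y hy => hb y hy) (convex_ball _ _).isPreconnected hy h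
    filter_upwards [ball_mem_nhds p₀ hr] with y hy using h3 hy
  have hsnd : Tendsto (Prod.snd : ℂ × Y → Y) (𝓝 (0, p₀)) (𝓝 p₀) := continuousAt_snd
  have hall := (((((he.eventually_analyticAt.and (eventually_all.2 fun j =>
    (hA j).eventually_analyticAt)).and hid).and hreg).and (hsnd.eventually hρ1))).eventually_nhds
  filter_upwards [hall] with x₀ hx₀
  have hx₀' := hx₀.self_of_nhds
  obtain ⟨⟨⟨⟨hex, hAx⟩, hidx⟩, hregx⟩, hρx⟩ := hx₀'
  have hline : ∀ x : ℂ × Y, Tendsto (fun z : ℂ => (z, x.2)) (𝓝 x.1) (𝓝 x) := by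
    intro x
    have : ContinuousAt (fun z : ℂ => (z, x.2)) x.1 := by fun_prop
    exact this
  have hnej : ¬ ∀ᶠ x in 𝓝 x₀, e x j₀ = 0 := fun h => hregx ((hline x₀).eventually h)
  refine ⟨hex, ne_iff.2 ⟨j₀, hnej⟩, fun v hv hpar => ?_⟩
  obtain ⟨Q, hQ, hQ1⟩ := Vale.Agent.P281.MF.extend_quotient (an_comp hv j₀) (an_comp hex j₀) hnej (by
    filter_upwards [hx₀.eventually_nhds, hpar.eventually_nhds,
      hv.eventually_analyticAt.eventually_nhds] with x h1 h2 h3 h0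
    rw [mem_closure_iff_nhds]
    intro U hU
    obtain ⟨z₁, y₁⟩ := x
    obtain ⟨ε, hε, hball⟩ := Metric.eventually_nhds_iff_ball.1 (((h1.and h2).and h3).and hU)
    have hmem : ∀ (z : ℂ) (y : Y), ‖z - z₁‖ < ε → dist y y₁ < ε → (z, y) ∈ ball (z₁, y₁) ε := by
      intro z y hz hy
      rw [mem_ball, Prod.dist_eq, max_lt_iff]
      exact ⟨by rwa [dist_eq_norm], hy⟩
    have hline : AnalyticAt ℂ (fun z : ℂ => e (z, y₁) j₀) z₁ := by
      have h4 : AnalyticAt ℂ (fun x => e x j₀) (z₁, y₁) :=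
        an_comp (hball _ (mem_ball_self hε)).1.1.1.1.1.1.1 j₀
      have h5 : AnalyticAt ℂ (fun z : ℂ => (z, y₁)) z₁ := analyticAt_id.prod analyticAt_const
      exact AnalyticAt.comp_of_eq h4 h5 rfl
    have hnz : ∀ᶠ z in 𝓝[≠] z₁, e (z, y₁) j₀ ≠ 0 :=
      hline.eventually_eq_zero_or_eventually_ne_zero.resolve_left
        (hball _ (mem_ball_self hε)).1.1.1.1.2
    obtain ⟨σ, hσ, hσ1⟩ := Metric.mem_nhdsWithin_iff.1 hnz
    obtain ⟨δ, hδ, hδσ, hδε⟩ : ∃ δ > 0, δ < σ ∧ δ < ε :=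
      ⟨min σ ε / 2, by positivity, by linarith [min_le_left σ ε, half_lt_self (lt_min hσ hε)],
        by linarith [min_le_right σ ε, half_lt_self (lt_min hσ hε)]⟩
    have hadd : ∀ (y : Y) (t : ℂ), (((0 : ℂ), y) : ℂ × Y) + t • ((1 : ℂ), (0 : Y)) = (t, y) := by
      intro y t
      simp
    have hz := Vale.Agent.P281.MF.zero_persists (P := fun x : ℂ × Y => e x j₀)
      (η := ((1 : ℂ), (0 : Y))) (z₀ := ((0 : ℂ), y₁)) (t₀ := z₁) hδ (by
        intro t ht
        rw [hadd]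
        filter_upwards [isOpen_ball.mem_nhds (hmem t y₁ (by linarith) (by rwa [dist_self]))]
          with y hy
        exact (an_comp (hball _ hy).1.1.1.1.1.1.1 j₀).differentiableAt) (by
        rw [hadd]
        exact h0) (by
        intro t ht
        rw [hadd]
        refine hσ1 ⟨?_, ?_⟩
        · rw [mem_ball, dist_eq_norm, ht]
          exact hδσ
        · rintro rfl
          rw [sub_self, norm_zero] at ht
          linarith)
    have hy : Tendsto (fun y : Y => ((0 : ℂ), y)) (𝓝 y₁) (𝓝 ((0 : ℂ), y₁)) := by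
      have : ContinuousAt (fun y : Y => ((0 : ℂ), y)) y₁ := by fun_prop
      exact this
    have hz' := (hy.eventually hz).and (ball_mem_nhds y₁ hε)
    have hfr : ∃ᶠ y in 𝓝 y₁, ρ y ≠ 0 := by
      have h5 := (hball _ (mem_ball_self hε)).1.1.1.2.2
      exact fun h => h5 (by simpa using h)
    obtain ⟨y₂, hy₂, ⟨t, ht, ht0⟩, hy₂b⟩ := (hfr.and_eventually hz').exists
    rw [hadd] at ht0
    have hx₂ : (t, y₂) ∈ ball (z₁, y₁) ε := hmem t y₂ (by linarith) hy₂b
    refine ⟨(t, y₂), (hball _ hx₂).2, ht0, ?_⟩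
    set G : ℂ × Y → ℂ := fun x => (∑ j, A j x * v x j) / ρ x.2 with hG
    have hGc : ContinuousAt G (t, y₂) := by
      refine ContinuousAt.div ?_ ?_ hy₂
      · refine tendsto_finsetSum _ fun j _ => ?_
        exact ((hball _ hx₂).1.1.1.1.1.1.2 j).continuousAt.mul
          (an_comp (hball _ hx₂).1.2 j).continuousAt
      · exact ContinuousAt.comp (g := ρ) (f := Prod.snd) (x := (t, y₂))
          (hball _ hx₂).1.1.1.2.1.continuousAt continuousAt_snd
    refine ⟨‖G (t, y₂)‖ + 1, ?_⟩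
    have hρne : ∀ᶠ x : ℂ × Y in 𝓝 (t, y₂), ρ x.2 ≠ 0 := by
      have h6 : ContinuousAt (fun x : ℂ × Y => ρ x.2) (t, y₂) :=
        ContinuousAt.comp (g := ρ) (f := Prod.snd) (x := (t, y₂))
          (hball _ hx₂).1.1.1.2.1.continuousAt continuousAt_snd
      exact h6.eventually_ne hy₂
    filter_upwards [hGc.norm.eventually_lt_const (show ‖G (t, y₂)‖ < ‖G (t, y₂)‖ + 1 by linarith),
      hρne, isOpen_ball.mem_nhds hx₂] with x h6 h7 h8
    have h9 : v x j₀ = G x * e x j₀ := by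
      have h10 := (hball _ h8).1.1.2
      have h11 := (hball _ h8).1.1.1.1.1.2
      have h12 : v x j₀ * ρ x.2 = (∑ j, A j x * v x j) * e x j₀ := by
        rw [h11, Finset.mul_sum, Finset.sum_mul]
        refine Finset.sum_congr rfl fun j _ => ?_
        rw [mul_assoc, ← h10 j₀ j]
        ring
      rw [hG]
      simp only
      rw [div_mul_eq_mul_div, ← h12]
      field_simp
    rw [h9, norm_mul]
    gcongr)
  refine ⟨Q, hQ, par_all hex hv hpar hnej hQ ?_⟩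
  filter_upwards [hQ1] with x hx
  rw [hx, mul_comm]

end Vale.Agent.P301.H508
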