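import Vale.Agent.P301.H508.Mov

/-!
# P301, package SAT: the quotient tensor of a family of proportional sections
-/

open scoped Manifold ContDiff ComplexOrder Topology
open Filter Metric Set

noncomputable section

namespace Vale.Agent.P301.H508

open Vale.Agent.P272.K Vale.Agent.P301.H599 Vale.Agent.P301.H724

variable {d : ℕ} {X : Type} [TopologicalSpace X] [ChartedSpace (Cm d) X] {ι κ : Type}

/-- the inverse of a line bundle -/
def invL (W : LineBundle d X κ) : LineBundle d X κ where
  U := W.U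
  isOpen := W.isOpen
  cover := W.cover
  g := fun i j x => (W.g i j x)⁻¹
  holo := fun i j e x he hi hj => by
    refine (W.holo i j e x he hi hj).inv ?_
    rw [e.left_inv he.2]
    exact W.ne_zero i j x hi hj
  ne_zero := fun i j x hi hj => inv_ne_zero (W.ne_zero i j x hi hj)
  cocycle := fun i j k x hi hj hk => by
    rw [← mul_inv, W.cocycle i j k x hi hj hk]

/-- `W ⊗ L^m`, for a line bundle `W` given on a refinement of the covering of `L`. -/
def tens (W : LineBundle d X κ) (L : LineBundle d X ι) (i : κ → ι) (hi : ∀ x, W.U x ⊆ L.U (i x))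
    (m : ℕ) : LineBundle d X κ where
  U := W.U
  isOpen := W.isOpen
  cover := W.cover
  g := fun x y z => W.g x y z * L.g (i x) (i y) z ^ m
  holo := fun x y e z he hx hy =>
    (W.holo x y e z he hx hy).mul ((L.holo (i x) (i y) e z he (hi x hx) (hi y hy)).pow m)
  ne_zero := fun x y z hx hy =>
    mul_ne_zero (W.ne_zero x y z hx hy) (pow_ne_zero _ (L.ne_zero _ _ _ (hi x hx) (hi y hy)))
  cocycle := fun x y z w hx hy hz => by
    rw [← W.cocycle x y z w hx hy hz, ← L.cocycle _ _ _ _ (hi x hx) (hi y hy) (hi z hz), mul_pow]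
    ring

section factor

variable {E : Type*} [NormedAddCommGroup E] [NormedSpace ℂ E] {K : Type*} [Fintype K]

theorem factor_eq {t : E → K → ℂ} {z : E} (ht : AnalyticAt ℂ t z) (hn : ¬ ∀ᶠ x in 𝓝 z, t x = 0)
    {f f' : E → ℂ} (hf : AnalyticAt ℂ f z) (hf' : AnalyticAt ℂ f' z)
    (h : ∀ᶠ x in 𝓝 z, ∀ k, f x * t x k = f' x * t x k) : ∀ᶠ x in 𝓝 z, f x = f' x := by
  obtain ⟨k, hk⟩ := ne_iff.1 hn
  have h1 := zero_or (an_comp ht k) (hf.sub hf') (by
    filter_upwards [h] with x hx
    have h2 := hx k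
    show t x k * (f x - f' x) = 0
    linear_combination h2)
  filter_upwards [h1.resolve_left hk] with x hx
  exact sub_eq_zero.1 hx

/-- gluing of the local factors -/
theorem glue_factor {Ω : Set E} (hΩ : IsOpen Ω) {t v : E → K → ℂ} (ht : ∀ z ∈ Ω, Prim t z)
    (hv : ∀ z ∈ Ω, AnalyticAt ℂ v z) (hpar : ∀ z ∈ Ω, ∀ k l, v z k * t z l = v z l * t z k) :
    ∃ f : E → ℂ, (∀ z ∈ Ω, AnalyticAt ℂ f z) ∧ ∀ z ∈ Ω, v z = f z • t z := by
  classical
  have h1 : ∀ z, z ∈ Ω → ∃ f : E → ℂ, AnalyticAt ℂ f z ∧ ∀ᶠ x in 𝓝 z, v x = f x • t x := by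
    intro z hz
    refine (ht z hz).dvd v (hv z hz) ?_
    filter_upwards [hΩ.mem_nhds hz] with x hx
    exact hpar x hx
  choose F hFa hFe using h1
  have key : ∀ z (hz : z ∈ Ω), ∀ᶠ x in 𝓝 z, (if hx : x ∈ Ω then F x hx x else 0) = F z hz x := by
    intro z hz
    filter_upwards [hΩ.mem_nhds hz, (hFa z hz).eventually_analyticAt, (hFe z hz).eventually_nhds]
      with x hx h2 h3
    rw [dif_pos hx]
    refine (factor_eq (ht x hx).an (ht x hx).ne (hFa x hx) h2 ?_).self_of_nhds
    filter_upwards [hFe x hx, h3] with y h4 h5 k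
    have h6 := congrFun (h4.symm.trans h5) k
    simpa using h6
  refine ⟨fun x => if hx : x ∈ Ω then F x hx x else 0, fun z hz => ?_, fun z hz => ?_⟩
  · exact (hFa z hz).congr (by
      filter_upwards [key z hz] with x hx
      exact hx.symm)
  · show v z = (if hx : z ∈ Ω then F z hx z else 0) • t z
    rw [dif_pos hz]
    exact (hFe z hz).self_of_nhds

end factor

variable (ι) in
/-- The moving part of a finite family of pairwise proportional sections `σ k` of `V ⊗ L^(m k)`:
a line bundle `W`, sections `t k` of `W ⊗ L^(m k)` without common divisor, and a section `τ` of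
`V ⊗ W⁻¹` such that `σ k = t k τ`. -/
structure MovingPart {K A : Type} [Fintype K] [Fintype A] (L : LineBundle d X ι)
    (Λ : Chart d X → Chart d X → X → Matrix A A ℂ) (mm : K → ℕ)
    (σ : K → ι → Chart d X → Cm d → A → ℂ) where
  i : X → ι
  W : LineBundle d X X
  t : X → X → K → ℂ
  τ : X → Chart d X → Cm d → A → ℂ
  mem : ∀ x, x ∈ W.U x
  sub : ∀ x, W.U x ⊆ L.U (i x)
  prim : ∀ x z, z ∈ W.U x → PrimX (d := d) (t x) z
  ch : ∀ x y z, z ∈ W.U x → z ∈ W.U y → ∀ k,
    t x z k = W.g x y z * L.g (i x) (i y) z ^ mm k * t y z k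
  sec : IsSec (invL W) Λ 1 τ
  fac : ∀ x e y, At e y → y ∈ W.U x → ∀ k a, σ k (i x) e (e y) a = t x y k * τ x e (e y) a
  rel : ∀ x e y, At e y → y ∈ W.U x → ∀ k l a,
        t x y l * σ k (i x) e (e y) a = t x y k * σ l (i x) e (e y) a

theorem exists_movingPart [PreconnectedSpace X] [IsManifold 𝓘(ℂ, Cm d) ω X] {K A : Type}
    [Fintype K] [Fintype A] (L : LineBundle d X ι) {Λ : Chart d X → Chart d X → X → Matrix A A ℂ}
    (hΛ : ∀ e e' x, At e x → At e' x → ∀ a b, ContinuousAt (fun y => Λ e e' y a b) x)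
    (mm : K → ℕ) (σ : K → ι → Chart d X → Cm d → A → ℂ) (hσ : ∀ k, IsSec L Λ (mm k) (σ k))
    (hprop : ∀ k l, Prop2 L (σ k) (σ l)) (hne : ∃ k x, Nz L (σ k) x) :
    Nonempty (MovingPart ι L Λ mm σ) := by
  classical
  obtain ⟨i, W, t, hmem, hsub, hprim, hch, hrel⟩ := moving L mm σ hσ hprop hne
  -- the factor in a chart
  have h1 : ∀ (x : X) (e : Chart d X) (a : A), ∃ f : Cm d → ℂ, e ∈ atlas (Cm d) X →
      (∀ z ∈ e.target ∩ e.symm ⁻¹' W.U x, AnalyticAt ℂ f z) ∧
      ∀ z ∈ e.target ∩ e.symm ⁻¹' W.U x, ∀ k, σ k (i x) e z a = f z * t x (e.symm z) k := by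
    intro x e a
    by_cases he : e ∈ atlas (Cm d) X
    · obtain ⟨f, hf, hf1⟩ := glue_factor (K := K) (isOpen_dom W e x)
        (t := fun z k => t x (e.symm z) k) (v := fun z k => σ k (i x) e z a) (by
          intro z hz
          have h2 : At e (e.symm z) := ⟨he, e.map_target hz.1⟩
          have h3 := hprim x (e.symm z) hz.2 e h2
          rwa [e.right_inv hz.1] at h3) (by
          intro z hz
          have h2 : At e (e.symm z) := ⟨he, e.map_target hz.1⟩
          rw [analyticAt_pi_iff]
          intro k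
          have h3 := (hσ k).holo (i x) e (e.symm z) h2 (hsub x hz.2) a
          rwa [e.right_inv hz.1] at h3) (by
          intro z hz k l
          have h2 : At e (e.symm z) := ⟨he, e.map_target hz.1⟩
          have h3 := hrel x e (e.symm z) h2 hz.2 k l a
          rw [e.right_inv hz.1] at h3
          show σ k (i x) e z a * t x (e.symm z) l = σ l (i x) e z a * t x (e.symm z) k
          linear_combination h3)
      refine ⟨f, fun _ => ⟨hf, fun z hz k => ?_⟩⟩
      have := congrFun (hf1 z hz) k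
      simpa using this
    · exact ⟨0, fun h => absurd h he⟩
  choose f hf using h1
  have hfac : ∀ x e y, At e y → y ∈ W.U x → ∀ k a,
      σ k (i x) e (e y) a = t x y k * f x e a (e y) := by
    intro x e y he hy k a
    have h2 : e y ∈ e.target ∩ e.symm ⁻¹' W.U x := by
      refine ⟨e.map_source he.2, ?_⟩
      show e.symm (e y) ∈ W.U x
      rwa [e.left_inv he.2]
    have h3 := (hf x e a he.1).2 _ h2 k
    rw [e.left_inv he.2] at h3
    rw [h3, mul_comm]
  have hfan : ∀ x e y, At e y → y ∈ W.U x → ∀ a, AnalyticAt ℂ (f x e a) (e y) := by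
    intro x e y he hy a
    refine (hf x e a he.1).1 _ ⟨e.map_source he.2, ?_⟩
    show e.symm (e y) ∈ W.U x
    rwa [e.left_inv he.2]
  -- continuity of the factor on `X`
  have hfc : ∀ x e y, At e y → y ∈ W.U x → ∀ a, ContinuousAt (fun v => f x e a (e v)) y :=
    fun x e y he hy a => ContinuousAt.comp (g := f x e a) (hfan x e y he hy a).continuousAt
      (e.continuousAt he.2)
  have hfreq : ∀ x y, y ∈ W.U x → ∃ᶠ v in 𝓝 y, ∃ k, t x v k ≠ 0 := by
    intro x y hy h2
    obtain ⟨e, he, h3, h4⟩ := (hprim x y hy).data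
    apply h4
    filter_upwards [ev_chart he h2] with z hz
    funext k
    by_contra h5
    exact hz ⟨k, h5⟩
  refine ⟨⟨i, W, t, fun x e z a => f x e a z, hmem, hsub, hprim, hch, ⟨?_, ?_, ?_⟩, hfac, hrel⟩⟩
  · intro x e y he hy a
    exact hfan x e y he hy a
  · intro x y e z he hx hy
    funext a
    have hc : ContinuousAt (fun v => f x e a (e v) - (W.g x y v)⁻¹ * f y e a (e v)) z := by
      refine (hfc x e z he hx a).sub (ContinuousAt.mul ?_ (hfc y e z he hy a))
      have h2 : ContinuousAt (W.g x y) z := AnX.cont (d := d) fun e he => W.holo x y e z he hx hy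
      exact h2.inv₀ (W.ne_zero x y z hx hy)
    have h2 := eq_zero_of_freq hc (by
      refine ((hfreq x z hx).and_eventually (inter_mem ((W.isOpen x).mem_nhds hx)
        (inter_mem ((W.isOpen y).mem_nhds hy) (at_eventually he)))).mono ?_
      rintro v ⟨⟨k, hk⟩, hvx, hvy, hev⟩
      have e1 := hfac x e v hev hvx k a
      have e2 := hfac y e v hev hvy k a
      have e3 : σ k (i x) e (e v) a = L.g (i x) (i y) v ^ mm k * σ k (i y) e (e v) a := by
        have := congrFun ((hσ k).chL (i x) (i y) e v hev (hsub x hvx) (hsub y hvy)) a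
        simpa using this
      have e4 := hch x y v hvx hvy k
      have hW := W.ne_zero x y v hvx hvy
      have h3 : t x v k * (f x e a (e v) - (W.g x y v)⁻¹ * f y e a (e v)) = 0 := by
        have e5 : t x v k * ((W.g x y v)⁻¹ * f y e a (e v)) =
            L.g (i x) (i y) v ^ mm k * (t y v k * f y e a (e v)) := by
          rw [e4]
          field_simp
        rw [mul_sub, e5, ← e1, ← e2, e3, sub_self]
      exact (mul_eq_zero.1 h3).resolve_left hk)
    show f x e a (e z) = ((invL W).g x y z ^ 1 • fun a => f y e a (e z)) a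
    rw [pow_one, Pi.smul_apply, smul_eq_mul]
    exact sub_eq_zero.1 h2
  · intro x e e' y he he' hy
    funext a
    have hc : ContinuousAt (fun v => f x e a (e v) - ∑ b, Λ e e' v a b * f x e' b (e' v)) y := by
      refine (hfc x e y he hy a).sub ?_
      refine tendsto_finsetSum _ fun b _ => ?_
      exact (hΛ e e' y he he' a b).mul (hfc x e' y he' hy b)
    have h2 := eq_zero_of_freq hc (by
      refine ((hfreq x y hy).and_eventually (inter_mem ((W.isOpen x).mem_nhds hy)
        (inter_mem (at_eventually he) (at_eventually he')))).mono ?_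
      rintro v ⟨⟨k, hk⟩, hvx, hev, hev'⟩
      have e1 := hfac x e v hev hvx k a
      have e3 := congrFun ((hσ k).chV (i x) e e' v hev hev' (hsub x hvx)) a
      have e4 : ((Λ e e' v).mulVec (σ k (i x) e' (e' v))) a =
          t x v k * ∑ b, Λ e e' v a b * f x e' b (e' v) := by
        rw [Matrix.mulVec, dotProduct, Finset.mul_sum]
        refine Finset.sum_congr rfl fun b _ => ?_
        rw [hfac x e' v hev' hvx k b]
        ring
      have h3 : t x v k * (f x e a (e v) - ∑ b, Λ e e' v a b * f x e' b (e' v)) = 0 := by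
        rw [mul_sub, ← e1, ← e4, e3, sub_self]
      exact (mul_eq_zero.1 h3).resolve_left hk)
    show f x e a (e y) = ((Λ e e' y).mulVec fun b => f x e' b (e' y)) a
    rw [Matrix.mulVec, dotProduct]
    exact sub_eq_zero.1 h2

end Vale.Agent.P301.H508
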